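import Vale.Agent.P040.H682.OData
import Vale.Agent.P040.H105.Dbl

/-!
# P040, odd layer: the hexagon on one list, definitions (helper700)

`T = a :: (A ++ b :: (B ++ [c]))`: `h + 2` consecutive arms of a star, list `dbl ε T` (page
`false` first). Shares `κ z` of the leaves: `2` = the whole leaf is inside its finger, `1` = one half
(the other half is immediately to the right of the finger), `0` = nothing. For the leaf `w` the inner
half is the one in the upper page.
-/

set_option autoImplicit false

namespace Vale.Agent.P040.H700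

open P040H251 H682

variable {h : ℕ} (P : OData h)

/-- the mass of the leaf `z` inside its finger, in the page `b` -/
noncomputable def inn (κ : Fin (2 * h + 1) → ℕ) (z : Fin (2 * h + 1)) (b : Bool) : ℝ :=
  if κ z = 0 then 0 else if κ z = 1 then P.nin z b else P.mu z b

variable {P} in
theorem inn_nonneg (κ : Fin (2 * h + 1) → ℕ) (z : Fin (2 * h + 1)) (b : Bool) :
    0 ≤ inn P κ z b := by
  unfold inn
  split_ifs
  · exact le_rfl
  · exact P.nin_nonneg z b
  · exact P.mu_nonneg z b

variable {P} in
theorem inn_le (κ : Fin (2 * h + 1) → ℕ) (z : Fin (2 * h + 1)) (b : Bool) :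
    inn P κ z b ≤ P.mu z b := by
  unfold inn
  split_ifs
  · exact P.mu_nonneg z b
  · exact P.nin_le z b
  · exact le_rfl

/-- the cumulative masses for the labels `DK.lab` -/
noncomputable def cK (κ : Fin (2 * h + 1) → ℕ) (b : Bool) (j : ℕ) : ℝ :=
  ∑ i, ((if 2 * P.rk (P.pos i) < j then inn P κ i b else 0) +
    (if 2 * P.rk (P.pos i) + 1 < j then P.mu i b - inn P κ i b else 0))

variable {P} in
theorem cK_mono (κ : Fin (2 * h + 1) → ℕ) (b : Bool) : Monotone (cK P κ b) := by
  intro j k hjk
  apply Finset.sum_le_sum
  intro i _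
  have h1 := inn_nonneg (P := P) κ i b
  have h2 := inn_le (P := P) κ i b
  apply add_le_add
  · split_ifs with c1 c2
    · exact le_rfl
    · omega
    · exact h1
    · exact le_rfl
  · split_ifs with c1 c2
    · exact le_rfl
    · omega
    · linarith
    · exact le_rfl

variable {P} in
theorem cK_nonneg (κ : Fin (2 * h + 1) → ℕ) (b : Bool) (j : ℕ) : 0 ≤ cK P κ b j := by
  apply Finset.sum_nonneg
  intro i _
  have h1 := inn_nonneg (P := P) κ i b
  have h2 := inn_le (P := P) κ i b
  apply add_nonneg
  · split_ifs
    · exact h1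
    · exact le_rfl
  · split_ifs
    · linarith
    · exact le_rfl

variable {P} in
theorem cK_le (κ : Fin (2 * h + 1) → ℕ) (b : Bool) (j : ℕ) : cK P κ b j ≤ h + 1 / 2 := by
  have h0 : ∑ i, P.mu i b = (h : ℝ) + 1 / 2 := by
    rw [← P.cum_top b]
    unfold OData.cum
    rw [Finset.filter_true_of_mem fun i _ => P.rk_pos_lt i]
  rw [← h0]
  apply Finset.sum_le_sum
  intro i _
  have h1 := inn_nonneg (P := P) κ i b
  have h2 := inn_le (P := P) κ i b
  split_ifs <;> linarith

/-- **The data of the spine with the shares `κ`.** -/
noncomputable def DK (κ : Fin (2 * h + 1) → ℕ) (ε : ℝ) : Dat ℝ where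
  lab := fun x => P.rk x + P.rk (x - 2 * ε)
  mono := by
    intro x y hxy
    exact add_le_add (P.rk_mono hxy) (P.rk_mono (by linarith))
  C := cK P κ
  Cmono := cK_mono κ
  M := ((h : ℝ) + 1 / 2) / 2
  pos := by positivity
  tot := fun b i j => by
    have h1 := cK_le (P := P) κ b j
    have h2 := cK_nonneg (P := P) κ b i
    linarith

/-- the shares of three leaves, the other leaves are inside -/
def sh3 (a b c : Fin (2 * h + 1)) (i j k : ℕ) : Fin (2 * h + 1) → ℕ :=
  fun z => if z = a then i else if z = b then j else if z = c then k else 2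

/-- the page of the mark of the leaf `z` -/
def mp (z : Fin (2 * h + 1)) : Bool := if z = P.w then false else P.pg z

/-- the mark of the leaf `z` (on the chord of the page `q` at `pos z + ε`) is before `x`; the
chord of the page `false` at `pos z + ε` comes before this point, the chord of the page
`true` after it -/
def psd (ε : ℝ) (T : List (Fin (2 * h + 1) × List ℝ)) (q : Bool) (z : Fin (2 * h + 1)) (x : ℝ) :
    Prop :=
  (Pst.dbl ε T).idxOf (P.pos z + ε) < (Pst.dbl ε T).idxOf x ∨ (x = P.pos z + ε ∧ q = false)

open Classical in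
/-- the arc of `x`: `0` between the marks of `c` and `a`, `1` between `a` and `b`, `2` between
`b` and `c` -/
noncomputable def arc (ε : ℝ) (T : List (Fin (2 * h + 1) × List ℝ)) (a b c : Fin (2 * h + 1))
    (x : ℝ) : ZMod 3 :=
  (if psd P ε T (mp P a) a x then 1 else 0) + (if psd P ε T (mp P b) b x then 1 else 0) +
    (if psd P ε T (mp P c) c x then 1 else 0)

end Vale.Agent.P040.H700
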