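import Vale.Agent.P040.H700.HexMass

/-!
# P040, odd layer: the phases of the hexagon on one list (helper700)
-/

set_option autoImplicit false

namespace Vale.Agent.P040.H700

open P040H251 H682 Pst H908

variable {h : ℕ} {P : OData h} {S T : List (Fin (2 * h + 1) × List ℝ)} {ε : ℝ}

/-- the point of the leaf is in the list and has odd index -/
theorem idx_leaf (hS : IsStar P.pos S) (hε : Sepd ε (pts S)) (h0 : 0 < ε) (hT : T.Sublist S)
    {z : Fin (2 * h + 1)} (hz : z ∈ T.map Prod.fst) :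
    P.pos z + ε ∈ dbl ε T ∧ (dbl ε T).idxOf (P.pos z + ε) % 2 = 1 := by
  obtain ⟨q, hq, rfl⟩ := List.mem_map.1 hz
  obtain ⟨A, B, rfl⟩ := List.append_of_mem hq
  obtain ⟨l, hl⟩ := hS.ends q (hT.subset hq)
  have hne : q.2 ≠ [] := by rw [hl]; simp
  have hrot := dbl_rotate (ε := ε) (z := q.1) (p := q.2) hl A B
  have hlen : (dbl ε A).length + idx q.2 < (dbl ε (A ++ q :: B)).length := by
    rw [dbl_append, dbl_cons, List.length_append, List.length_append, List.length_append,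
      sh_length, List.length_reverse, sh_length]
    have hp : 0 < q.2.length := List.length_pos_iff.2 hne
    unfold idx
    split_ifs <;> omega
  have hg : g (dbl ε (A ++ q :: B)) ((dbl ε A).length + idx q.2) = P.pos q.1 + ε := by
    unfold g
    rw [List.getD_eq_getElem _ _ hlen]
    have h1 := List.getElem_rotate (dbl ε (A ++ q :: B)) ((dbl ε A).length + idx q.2) 0
      (by rw [List.length_rotate]; omega)
    simp only [Nat.zero_add, Nat.mod_eq_of_lt hlen] at h1
    rw [← h1]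
    simp only [show (A ++ q :: B) = A ++ (q.1, q.2) :: B from rfl, hrot, List.getElem_cons_zero]
  have hnd : (dbl ε (A ++ q :: B)).Nodup :=
    dbl_nodup (hS.nodup.sublist (pts_sublist hT)) (hε.mono fun p hp => (pts_sublist hT).subset hp) h0
  constructor
  · rw [← hg]
    exact g_mem hlen
  · rw [← hg, idx_g hnd hlen]
    have := (dbl_length_even ε A).add_odd (odd_idx hne)
    exact Nat.odd_iff.1 this

/-- the points of the list near a leaf -/
theorem near_leaf (hS : IsStar P.pos S) (hε : Sepd ε (pts S)) (h0 : 0 < ε)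
    (hT : ∀ q ∈ T, q ∈ S) {x : ℝ} (hx : x ∈ dbl ε T) (i : Fin (2 * h + 1)) :
    (P.pos i < x ∧ ¬ P.pos i + 2 * ε < x ∧ x = P.pos i + ε) ∨
    (¬ P.pos i < x ∧ ¬ P.pos i + 2 * ε < x ∧ x ≠ P.pos i + ε) ∨
    (P.pos i < x ∧ P.pos i + 2 * ε < x ∧ x ≠ P.pos i + ε) := by
  obtain ⟨q, hq, p, hp, σ, hσ, rfl⟩ := mem_dbl hx
  have hpS : p ∈ pts S := List.mem_flatMap.2 ⟨q, hT q hq, hp⟩
  rw [abs_of_pos h0] at hσ
  by_cases hpi : p = P.pos i
  · subst hpi
    rcases le_total 0 σ with h1 | h1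
    · rw [abs_of_nonneg h1] at hσ
      left
      exact ⟨by linarith, by linarith, by linarith⟩
    · rw [abs_of_nonpos h1] at hσ
      right; left
      refine ⟨by linarith, by linarith, ?_⟩
      intro hh; linarith
  · have h3 := hε _ hpS _ (leaf_pts hS i) hpi
    have h4 := abs_le.1 hσ.le
    rcases lt_or_ge p (P.pos i) with h5 | h5
    · rw [abs_of_neg (by linarith)] at h3
      right; left
      refine ⟨by linarith, by linarith, ?_⟩
      intro hh; linarith
    · rw [abs_of_nonneg (by linarith)] at h3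
      right; right
      refine ⟨by linarith, by linarith, ?_⟩
      intro hh; linarith

theorem mf_diff (hS : IsStar P.pos S) (hε : Sepd ε (pts S)) (h0 : 0 < ε)
    (hT : ∀ q ∈ T, q ∈ S) (κ κ' : Fin (2 * h + 1) → ℕ) (b : Bool) {x : ℝ} (hx : x ∈ dbl ε T) :
    mf P κ' ε b x = mf P κ ε b x +
      ∑ i, if x = P.pos i + ε then inn P κ' i b - inn P κ i b else 0 := by
  unfold mf
  rw [← Finset.sum_add_distrib]
  apply Finset.sum_congr rfl
  intro i _
  rcases near_leaf hS hε h0 hT hx i with ⟨h1, h2, h3⟩ | ⟨h1, h2, h3⟩ | ⟨h1, h2, h3⟩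
  · rw [if_pos h1, if_pos h1, if_neg h2, if_neg h2, if_pos h3]; ring
  · rw [if_neg h1, if_neg h1, if_neg h2, if_neg h2, if_neg h3]; ring
  · rw [if_pos h1, if_pos h1, if_pos h2, if_pos h2, if_neg h3]; ring

/-- the page of the chord across which the mass moves -/
def qq (P : OData h) (κ' : Fin (2 * h + 1) → ℕ) (z : Fin (2 * h + 1)) : Bool :=
  if z = P.w ∧ κ' z = 0 then true else mp P z

theorem inn_diff {κ κ' : Fin (2 * h + 1) → ℕ} {z : Fin (2 * h + 1)}
    (hk : κ z ≠ κ' z → κ z = 1 ∧ (κ' z = 0 ∨ κ' z = 2)) (b : Bool) :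
    inn P κ' z b - inn P κ z b =
      - (if qq P κ' z = b then ((κ z : ℝ) - κ' z) / 2 else 0) := by
  by_cases he : κ z = κ' z
  · unfold inn
    rw [he]; simp
  · obtain ⟨h1, h2⟩ := hk he
    unfold inn qq mp OData.nin OData.mu
    rcases h2 with h2 | h2
    · rw [h1, h2]
      by_cases hw : z = P.w
      · cases b <;> simp [hw]
      · cases b <;> cases P.pg z <;> simp [hw]
    · rw [h1, h2]
      by_cases hw : z = P.w
      · cases b
        · simp [hw]; norm_num
        · simp [hw]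
      · cases b <;> cases P.pg z <;> simp [hw] <;> norm_num

open Classical in
/-- **Changing the shares.** -/
theorem crv_dk (hS : IsStar P.pos S) (hε : Sepd ε (pts S)) (h0 : 0 < ε) (hT : T.Sublist S)
    {κ κ' : Fin (2 * h + 1) → ℕ}
    (hk : ∀ z, κ z ≠ κ' z → κ z = 1 ∧ (κ' z = 0 ∨ κ' z = 2) ∧ z ∈ T.map Prod.fst)
    (hsum : ∑ z, ((κ z : ℝ) - κ' z) / 2 = 0) {E : ℝ → ℝ}
    (hC : Crv (DK P κ ε) false (dbl ε T) E) :
    Crv (DK P κ' ε) false (dbl ε T) (fun x => E x + ∑ z,
      if bef (dbl ε T) (P.pos z + ε) (qq P κ' z) x then ((κ z : ℝ) - κ' z) / 2 else 0) := by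
  have hs := sepL_of hS hε
  refine crv_shift (D' := DK P κ' ε) hC rfl (fun z => P.pos z + ε) (fun z => qq P κ' z)
    (fun z => ((κ z : ℝ) - κ' z) / 2) ?_ hsum ?_
  · intro z hz
    refine idx_leaf hS hε h0 hT (hk z ?_).2.2
    intro he
    apply hz
    show ((κ z : ℝ) - κ' z) / 2 = 0
    rw [he]; simp
  · intro b x hx
    rw [dk_C h0 hs, dk_C h0 hs, mf_diff hS hε h0 (fun q hq => hT.subset hq) κ κ' b hx,
      sub_eq_add_neg, ← Finset.sum_neg_distrib]
    congr 1
    apply Finset.sum_congr rfl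
    intro z _
    rw [inn_diff (fun he => ⟨(hk z he).1, (hk z he).2.1⟩) b]
    by_cases h1 : x = P.pos z + ε <;> by_cases h2 : qq P κ' z = b <;> simp [h1, h2]

/-- **The centre of the hexagon.** -/
theorem exists_EO (hS : IsStar P.pos S) (hε : Sepd ε (pts S)) (h0 : 0 < ε) (hT : T.Sublist S)
    (hne : T ≠ []) {κ : Fin (2 * h + 1) → ℕ} (hk : ∀ z, κ z ≤ 2)
    (hsum : (T.map fun q => (κ q.1 : ℝ) / 2).sum = h + 1 / 2) :
    ∃ E, Crv (DK P κ ε) false (dbl ε T) E := by
  have h1 := subS_dk hS hT hε h0 hk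
  have h2 : (T.map fun q => (κ q.1 : ℝ) / 2).sum = 2 * (DK P κ ε).M := by
    rw [hsum]
    show (h : ℝ) + 1 / 2 = 2 * (((h : ℝ) + 1 / 2) / 2)
    ring
  rw [h2] at h1
  obtain ⟨E, -, hE⟩ := h1.crv hne
  exact ⟨E, hE⟩

end Vale.Agent.P040.H700
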