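import Vale.Agent.P040.H700.HexSkip
import Vale.Agent.P040.H610.OTri
import Vale.Agent.P040.H242.Dgs

/-!
# P040, odd layer: the hexagon rule (geometric form) from the hexagon inequality (helper700)
-/

set_option autoImplicit false
set_option linter.unusedSimpArgs false

namespace Vale.Agent.P040.H700

open P040H251 H682 Pst H908 Vale.Agent.P040.H906

variable {h : ℕ} {P : OData h} {S T : List (Fin (2 * h + 1) × List ℝ)} {ε : ℝ}

theorem sum3 {ι : Type*} [Fintype ι] [DecidableEq ι] {a b c : ι} (hab : a ≠ b) (hac : a ≠ c)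
    (hbc : b ≠ c) {f : ι → ℝ} (hf : ∀ z, z ≠ a → z ≠ b → z ≠ c → f z = 0) :
    ∑ z, f z = f a + f b + f c := by
  have h1 : ∑ z, f z = ∑ z ∈ ({a, b, c} : Finset ι), f z := by
    symm
    apply Finset.sum_subset (Finset.subset_univ _)
    intro z _ hz
    simp only [Finset.mem_insert, Finset.mem_singleton, not_or] at hz
    exact hf z hz.1 hz.2.1 hz.2.2
  rw [h1, Finset.sum_insert (by simp [hab, hac]), Finset.sum_insert (by simp [hbc]),
    Finset.sum_singleton]
  ring

open Classical in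
/-- `1` behind the mark -/
noncomputable def be (P : OData h) (ε : ℝ) (T : List (Fin (2 * h + 1) × List ℝ))
    (z : Fin (2 * h + 1)) (q : Bool) (x : ℝ) : ℝ :=
  if bef (dbl ε T) (P.pos z + ε) q x then 1 else 0

theorem be_cases (P : OData h) (ε : ℝ) (T : List (Fin (2 * h + 1) × List ℝ))
    (z : Fin (2 * h + 1)) (q : Bool) (x : ℝ) : be P ε T z q x = 0 ∨ be P ε T z q x = 1 := by
  unfold be
  split_ifs
  · exact Or.inr rfl
  · exact Or.inl rfl

/-- **One phase of the hexagon.** -/
theorem phase (hS : IsStar P.pos S) (hε : Sepd ε (pts S)) (h0 : 0 < ε) (hT : T.Sublist S)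
    {a b c : Fin (2 * h + 1)} (hab : a ≠ b) (hac : a ≠ c) (hbc : b ≠ c)
    (ha : a ∈ T.map Prod.fst) (hb : b ∈ T.map Prod.fst) (hc : c ∈ T.map Prod.fst) {EO : ℝ → ℝ}
    (hE : Crv (DK P (sh3 a b c 1 1 1) ε) false (dbl ε T) EO) {i j k : ℕ} (hi : i ≤ 2) (hj : j ≤ 2)
    (hk : k ≤ 2) (hs : i + j + k = 3) :
    ∃ F : ℝ → ℝ, Crv (DK P (sh3 a b c i j k) ε) false (dbl ε T) F ∧
      ∀ x, F x = EO x + ((1 - (i : ℝ)) / 2 * be P ε T a (qq P (sh3 a b c i j k) a) x +
        (1 - (j : ℝ)) / 2 * be P ε T b (qq P (sh3 a b c i j k) b) x +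
        (1 - (k : ℝ)) / 2 * be P ε T c (qq P (sh3 a b c i j k) c) x) := by
  classical
  have ea : ∀ i j k : ℕ, sh3 a b c i j k a = i := fun i j k => by simp [sh3]
  have eb : ∀ i j k : ℕ, sh3 a b c i j k b = j := fun i j k => by simp [sh3, hab.symm]
  have ec : ∀ i j k : ℕ, sh3 a b c i j k c = k := fun i j k => by
    simp [sh3, hac.symm, hbc.symm]
  have eo : ∀ i j k : ℕ, ∀ z, z ≠ a → z ≠ b → z ≠ c → sh3 a b c i j k z = 2 :=
    fun i j k z h1 h2 h3 => by simp [sh3, h1, h2, h3]
  refine ⟨_, crv_dk (κ := sh3 a b c 1 1 1) (κ' := sh3 a b c i j k) hS hε h0 hT ?_ ?_ hE, ?_⟩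
  · intro z hz
    by_cases h1 : z = a
    · subst h1
      rw [ea, ea] at hz
      rw [ea, ea]
      exact ⟨rfl, by omega, ha⟩
    · by_cases h2 : z = b
      · subst h2
        rw [eb, eb] at hz
        rw [eb, eb]
        exact ⟨rfl, by omega, hb⟩
      · by_cases h3 : z = c
        · subst h3
          rw [ec, ec] at hz
          rw [ec, ec]
          exact ⟨rfl, by omega, hc⟩
        · rw [eo _ _ _ z h1 h2 h3, eo _ _ _ z h1 h2 h3] at hz
          exact absurd rfl hz
  · rw [sum3 hab hac hbc (fun z h1 h2 h3 => by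
      rw [eo _ _ _ z h1 h2 h3, eo _ _ _ z h1 h2 h3]; simp)]
    rw [ea, ea, eb, eb, ec, ec]
    have : (i : ℝ) + j + k = 3 := by exact_mod_cast hs
    push_cast
    linarith
  · intro x
    show EO x + _ = _
    congr 1
    rw [sum3 hab hac hbc (fun z h1 h2 h3 => by
      rw [eo _ _ _ z h1 h2 h3, eo _ _ _ z h1 h2 h3]; simp)]
    rw [ea, ea, eb, eb, ec, ec]
    unfold be
    push_cast
    split_ifs <;> ring

/-- at the points of even index the page of the mark does not matter -/
theorem be_down (hS : IsStar P.pos S) (hε : Sepd ε (pts S)) (h0 : 0 < ε) (hT : T.Sublist S)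
    {z : Fin (2 * h + 1)} (hz : z ∈ T.map Prod.fst) (q : Bool) {x : ℝ}
    (hxe : (dbl ε T).idxOf x % 2 = 0) :
    bef (dbl ε T) (P.pos z + ε) q x ↔ (dbl ε T).idxOf (P.pos z + ε) < (dbl ε T).idxOf x := by
  have h1 := (idx_leaf hS hε h0 hT hz).2
  unfold bef
  constructor
  · rintro (h2 | ⟨h2, -⟩)
    · exact h2
    · rw [h2] at hxe; omega
  · exact Or.inl

/-- the place of the point of the leaf -/
theorem idx_leaf' (hS : IsStar P.pos S) (hε : Sepd ε (pts S)) (h0 : 0 < ε)
    {A B : List (Fin (2 * h + 1) × List ℝ)} {q : Fin (2 * h + 1) × List ℝ}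
    (hT : (A ++ q :: B).Sublist S) :
    (dbl ε A).length ≤ (dbl ε (A ++ q :: B)).idxOf (P.pos q.1 + ε) ∧
      (dbl ε (A ++ q :: B)).idxOf (P.pos q.1 + ε) < (dbl ε (A ++ [q])).length := by
  obtain ⟨l, hl⟩ := hS.ends q (hT.subset (by simp))
  have hne : q.2 ≠ [] := by rw [hl]; simp
  have hmem : P.pos q.1 + ε ∈ dbl ε [q] := by
    rw [dbl_cons, dbl_nil, List.append_nil, hl, sh_append, sh_append, List.reverse_append]
    simp only [sh_cons, sh_nil, List.reverse_cons, List.reverse_nil, List.nil_append,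
      List.mem_append, List.mem_cons]
    rw [sg_eq, sg_eq]
    rcases hf : fl l.length true with _ | _
    · simp
    · simp
  have hnd : (dbl ε (A ++ q :: B)).Nodup :=
    dbl_nodup (hS.nodup.sublist (pts_sublist hT)) (hε.mono fun p hp => (pts_sublist hT).subset hp) h0
  have e1 : dbl ε (A ++ q :: B) = dbl ε A ++ (dbl ε [q] ++ dbl ε B) := by
    rw [dbl_append, dbl_cons, dbl_cons, dbl_nil]
    simp
  rw [e1] at hnd ⊢
  have hnA : P.pos q.1 + ε ∉ dbl ε A := by
    intro hh
    exact (List.nodup_append.1 hnd).2.2 _ hh _ (List.mem_append_left _ hmem) rfl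
  rw [List.idxOf_append_of_notMem hnA, List.idxOf_append_of_mem hmem]
  have h2 := List.idxOf_lt_length_of_mem hmem
  rw [dbl_append, List.length_append]
  constructor <;> omega

/-- **The hexagon inequality at the centre `EO`** (the conclusion of the tripod lemma): the
phases agree with `EO ± 1/2` on one arc, at the downward points only. -/
def HexAt (P : OData h) (ε : ℝ) (T : List (Fin (2 * h + 1) × List ℝ))
    (a b c : Fin (2 * h + 1)) (EO : ℝ → ℝ) : Prop :=
  ∀ Fp Fm : ZMod 3 → ℝ → ℝ,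
    (∀ i, ∃ M, (cfg false (dbl ε T)).Valid (Fp i) M) →
    (∀ i, ∃ M, (cfg false (dbl ε T)).Valid (Fm i) M) →
    (∀ i, ∀ x ∈ dbl ε T, upc false (dbl ε T) x = false →
      Fp i x = EO x + if arc P ε T a b c x = i then 1 / 2 else 0) →
    (∀ i, ∀ x ∈ dbl ε T, upc false (dbl ε T) x = false →
      Fm i x = EO x - if arc P ε T a b c x = i then 1 / 2 else 0) →
    (vminus.val false (dbl ε T) (Fp 0) - vminus.val false (dbl ε T) (Fm 0)) +
      (vminus.val false (dbl ε T) (Fp 1) - vminus.val false (dbl ε T) (Fm 1)) +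
      (vminus.val false (dbl ε T) (Fp 2) - vminus.val false (dbl ε T) (Fm 2)) ≤ 1

theorem sum_two {ι : Type*} (f : ι → ℝ) (A : List ι) (hA : ∀ q ∈ A, f q = 1) :
    (A.map f).sum = A.length := by
  induction A with
  | nil => simp
  | cons q A ih =>
    rw [List.map_cons, List.sum_cons, hA q (by simp),
      ih fun r hr => hA r (List.mem_cons_of_mem _ hr), List.length_cons]
    push_cast
    ring

/-- **The hexagon rule** from the hexagon inequality. -/
theorem hexGeom_of (P : OData h)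
    (H : ∀ (S : List (Fin (2 * h + 1) × List ℝ)), IsStar P.pos S → ∀ ε : ℝ, 0 < ε →
      Sepd ε (pts S) → ∀ (a b c : Fin (2 * h + 1) × List ℝ)
      (A B L : List (Fin (2 * h + 1) × List ℝ)), S = a :: (A ++ b :: (B ++ c :: L)) →
      ∀ EO : ℝ → ℝ, Crv (DK P (sh3 a.1 b.1 c.1 1 1 1) ε) false
        (dbl ε (a :: (A ++ b :: (B ++ [c])))) EO →
      HexAt P ε (a :: (A ++ b :: (B ++ [c]))) a.1 b.1 c.1 EO) : OTri.HexGeom P vminus := by
  classical
  intro S hS ε h0 hε a b c A B L' hSe hl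
  have HH := H S hS ε h0 hε a b c A B L' hSe
  clear H
  set T := a :: (A ++ b :: (B ++ [c])) with hTd
  have hT : T.Sublist S := by
    have e : S = T ++ L' := by rw [hSe, hTd]; simp
    rw [e]
    exact List.sublist_append_left _ _
  have hfn : (T.map Prod.fst).Nodup := hS.map_fst_nodup.sublist (List.Sublist.map _ hT)
  have hfn' : (a.1 :: (A.map Prod.fst ++ b.1 :: (B.map Prod.fst ++ [c.1]))).Nodup := by
    simpa [hTd] using hfn
  have hab : a.1 ≠ b.1 := by intro hh; rw [hh] at hfn'; simp at hfn'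
  have hac : a.1 ≠ c.1 := by intro hh; rw [hh] at hfn'; simp at hfn'
  rw [List.nodup_cons, List.nodup_append, List.nodup_cons, List.nodup_append] at hfn'
  obtain ⟨hn1, hn2, ⟨hn3, hn4, -, hn5⟩, hn6⟩ := hfn'
  have hbc : b.1 ≠ c.1 := by intro hh; apply hn3; rw [hh]; simp
  have hA : ∀ q ∈ A, q.1 ≠ a.1 ∧ q.1 ≠ b.1 ∧ q.1 ≠ c.1 := by
    intro q hq
    have hq' : q.1 ∈ A.map Prod.fst := List.mem_map_of_mem hq
    refine ⟨fun hh => hn1 (hh ▸ List.mem_append_left _ hq'), hn6 _ hq' _ (by simp),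
      hn6 _ hq' _ (by simp)⟩
  have hB : ∀ q ∈ B, q.1 ≠ a.1 ∧ q.1 ≠ b.1 ∧ q.1 ≠ c.1 := by
    intro q hq
    have hq' : q.1 ∈ B.map Prod.fst := List.mem_map_of_mem hq
    refine ⟨fun hh => hn1 (hh ▸ ?_), fun hh => hn3 (hh ▸ List.mem_append_left _ hq'),
      hn5 _ hq' _ (by simp)⟩
    exact List.mem_append_right _ (List.mem_cons_of_mem _ (List.mem_append_left _ hq'))
  have maT : a.1 ∈ T.map Prod.fst := by simp [hTd]
  have mbT : b.1 ∈ T.map Prod.fst := by simp [hTd]
  have mcT : c.1 ∈ T.map Prod.fst := by simp [hTd]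
  have ea : ∀ i j k : ℕ, sh3 a.1 b.1 c.1 i j k a.1 = i := fun i j k => by simp [sh3]
  have eb : ∀ i j k : ℕ, sh3 a.1 b.1 c.1 i j k b.1 = j := fun i j k => by simp [sh3, hab.symm]
  have ec : ∀ i j k : ℕ, sh3 a.1 b.1 c.1 i j k c.1 = k := fun i j k => by
    simp [sh3, hac.symm, hbc.symm]
  have eo : ∀ i j k : ℕ, ∀ z, z ≠ a.1 → z ≠ b.1 → z ≠ c.1 → sh3 a.1 b.1 c.1 i j k z = 2 :=
    fun i j k z h1 h2 h3 => by simp [sh3, h1, h2, h3]
  -- the centre
  obtain ⟨EO, hEO⟩ : ∃ E, Crv (DK P (sh3 a.1 b.1 c.1 1 1 1) ε) false (dbl ε T) E := by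
    refine exists_EO hS hε h0 hT (by simp [hTd]) ?_ ?_
    · intro z
      unfold sh3
      split_ifs <;> omega
    · rw [hTd, List.map_cons, List.map_append, List.map_cons, List.map_append, List.map_cons,
        List.map_nil, List.sum_cons, List.sum_append, List.sum_cons, List.sum_append,
        List.sum_cons, List.sum_nil, ea, eb, ec,
        sum_two _ A (fun q hq => by
          rw [eo _ _ _ _ (hA q hq).1 (hA q hq).2.1 (hA q hq).2.2]; norm_num),
        sum_two _ B (fun q hq => by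
          rw [eo _ _ _ _ (hB q hq).1 (hB q hq).2.1 (hB q hq).2.2]; norm_num)]
      have e : (A.length : ℝ) + B.length + 1 = h := by exact_mod_cast hl
      push_cast
      linarith
  have HH' := HH EO hEO
  clear HH
  -- the six phases
  obtain ⟨F021, k021, f021⟩ := phase (i := 0) (j := 2) (k := 1) hS hε h0 hT hab hac hbc maT mbT
    mcT hEO (by omega) (by omega) (by omega) rfl
  obtain ⟨F201, k201, f201⟩ := phase (i := 2) (j := 0) (k := 1) hS hε h0 hT hab hac hbc maT mbT
    mcT hEO (by omega) (by omega) (by omega) rfl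
  obtain ⟨F102, k102, f102⟩ := phase (i := 1) (j := 0) (k := 2) hS hε h0 hT hab hac hbc maT mbT
    mcT hEO (by omega) (by omega) (by omega) rfl
  obtain ⟨F120, k120, f120⟩ := phase (i := 1) (j := 2) (k := 0) hS hε h0 hT hab hac hbc maT mbT
    mcT hEO (by omega) (by omega) (by omega) rfl
  obtain ⟨F210, k210, f210⟩ := phase (i := 2) (j := 1) (k := 0) hS hε h0 hT hab hac hbc maT mbT
    mcT hEO (by omega) (by omega) (by omega) rfl
  obtain ⟨F012, k012, f012⟩ := phase (i := 0) (j := 1) (k := 2) hS hε h0 hT hab hac hbc maT mbT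
    mcT hEO (by omega) (by omega) (by omega) rfl
  push_cast at f021 f201 f102 f120 f210 f012
  -- the order of the marks
  have iab : (dbl ε T).idxOf (P.pos a.1 + ε) < (dbl ε T).idxOf (P.pos b.1 + ε) := by
    have h1 := (idx_leaf' hS hε h0 (A := []) (q := a) (B := A ++ b :: (B ++ [c])) hT).2
    have h2 := (idx_leaf' hS hε h0 (A := a :: A) (q := b) (B := B ++ [c]) hT).1
    have h3 : (dbl ε ([] ++ [a])).length ≤ (dbl ε (a :: A)).length := by
      rw [List.nil_append, dbl_cons, dbl_cons, dbl_nil]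
      simp only [List.length_append, List.length_nil]
      omega
    exact lt_of_lt_of_le h1 (h3.trans h2)
  have eT3 : (a :: (A ++ b :: B)) ++ c :: [] = T := by simp [hTd]
  have ibc : (dbl ε T).idxOf (P.pos b.1 + ε) < (dbl ε T).idxOf (P.pos c.1 + ε) := by
    have h1 := (idx_leaf' hS hε h0 (A := a :: A) (q := b) (B := B ++ [c]) hT).2
    have h2 := (idx_leaf' hS hε h0 (A := a :: (A ++ b :: B)) (q := c) (B := [])
      (by rw [eT3]; exact hT)).1
    rw [eT3] at h2
    have h3 : (dbl ε ((a :: A) ++ [b])).length ≤ (dbl ε (a :: (A ++ b :: B))).length := by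
      have e : a :: (A ++ b :: B) = ((a :: A) ++ [b]) ++ B := by simp
      rw [e, dbl_append (S := (a :: A) ++ [b])]
      simp only [List.length_append]
      omega
    exact lt_of_lt_of_le h1 (h3.trans h2)
  -- values of the steps
  have b1 : ∀ z q x, (dbl ε T).idxOf (P.pos z + ε) < (dbl ε T).idxOf x → be P ε T z q x = 1 := by
    intro z q x hh
    unfold be bef
    rw [if_pos (Or.inl hh)]
  have b0 : ∀ z q x, (dbl ε T).idxOf x < (dbl ε T).idxOf (P.pos z + ε) → be P ε T z q x = 0 := by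
    intro z q x hh
    unfold be bef
    rw [if_neg]
    rintro (h1 | ⟨h1, -⟩)
    · omega
    · rw [h1] at hh; exact lt_irrefl _ hh
  have bmon : ∀ z z' q q' x, (dbl ε T).idxOf (P.pos z + ε) < (dbl ε T).idxOf (P.pos z' + ε) →
      be P ε T z' q x ≤ be P ε T z q' x := by
    intro z z' q q' x hh
    rcases be_cases P ε T z' q x with h1 | h1
    · rcases be_cases P ε T z q' x with h2 | h2 <;> rw [h1, h2] <;> norm_num
    · have h2 : (dbl ε T).idxOf (P.pos z' + ε) ≤ (dbl ε T).idxOf x := by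
        unfold be at h1
        by_contra hc
        rw [if_neg] at h1
        · norm_num at h1
        · rintro (h3 | ⟨h3, -⟩)
          · omega
          · rw [h3] at hc; exact hc le_rfl
      rw [h1, b1 z q' x (lt_of_lt_of_le hh h2)]
  have bnn : ∀ z q x, 0 ≤ be P ε T z q x ∧ be P ε T z q x ≤ 1 := by
    intro z q x
    rcases be_cases P ε T z q x with h1 | h1 <;> rw [h1] <;> norm_num
  -- downward points
  have hdown : ∀ x ∈ dbl ε T, upc false (dbl ε T) x = false →
      ((∀ q, be P ε T a.1 q x = 0) ∧ (∀ q, be P ε T b.1 q x = 0) ∧ (∀ q, be P ε T c.1 q x = 0) ∧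
        arc P ε T a.1 b.1 c.1 x = 0) ∨
      ((∀ q, be P ε T a.1 q x = 1) ∧ (∀ q, be P ε T b.1 q x = 0) ∧ (∀ q, be P ε T c.1 q x = 0) ∧
        arc P ε T a.1 b.1 c.1 x = 1) ∨
      ((∀ q, be P ε T a.1 q x = 1) ∧ (∀ q, be P ε T b.1 q x = 1) ∧ (∀ q, be P ε T c.1 q x = 0) ∧
        arc P ε T a.1 b.1 c.1 x = 2) ∨
      ((∀ q, be P ε T a.1 q x = 1) ∧ (∀ q, be P ε T b.1 q x = 1) ∧ (∀ q, be P ε T c.1 q x = 1) ∧
        arc P ε T a.1 b.1 c.1 x = 0) := by
    intro x hx hu
    have hev : (dbl ε T).idxOf x % 2 = 0 := by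
      unfold upc pgk at hu
      by_contra hc
      rw [if_neg hc] at hu
      simp at hu
    have e1 : ∀ z ∈ T.map Prod.fst, ∀ q, be P ε T z q x =
        if (dbl ε T).idxOf (P.pos z + ε) < (dbl ε T).idxOf x then 1 else 0 := by
      intro z hz q
      unfold be
      simp only [be_down hS hε h0 hT hz q hev]
    have e2 : arc P ε T a.1 b.1 c.1 x =
        (if (dbl ε T).idxOf (P.pos a.1 + ε) < (dbl ε T).idxOf x then 1 else 0) +
        (if (dbl ε T).idxOf (P.pos b.1 + ε) < (dbl ε T).idxOf x then 1 else 0) +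
        (if (dbl ε T).idxOf (P.pos c.1 + ε) < (dbl ε T).idxOf x then 1 else 0) := by
      have e3 : ∀ z ∈ T.map Prod.fst, psd P ε T (mp P z) z x ↔
          (dbl ε T).idxOf (P.pos z + ε) < (dbl ε T).idxOf x :=
        fun z hz => be_down hS hε h0 hT hz (mp P z) hev
      unfold arc
      simp only [e3 _ maT, e3 _ mbT, e3 _ mcT]
    rw [e2]
    simp only [e1 _ maT, e1 _ mbT, e1 _ mcT]
    by_cases h1 : (dbl ε T).idxOf (P.pos a.1 + ε) < (dbl ε T).idxOf x
    · by_cases h2 : (dbl ε T).idxOf (P.pos b.1 + ε) < (dbl ε T).idxOf x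
      · by_cases h3 : (dbl ε T).idxOf (P.pos c.1 + ε) < (dbl ε T).idxOf x
        · right; right; right
          simp only [h1, h2, h3, if_true]
          refine ⟨fun _ => trivial, fun _ => trivial, fun _ => trivial, by decide⟩
        · right; right; left
          simp only [h1, h2, h3, if_true, if_false]
          refine ⟨fun _ => trivial, fun _ => trivial, fun _ => trivial, by decide⟩
      · have h3 : ¬ (dbl ε T).idxOf (P.pos c.1 + ε) < (dbl ε T).idxOf x := by omega
        right; left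
        simp only [h1, h2, h3, if_true, if_false]
        refine ⟨fun _ => trivial, fun _ => trivial, fun _ => trivial, by decide⟩
    · have h2 : ¬ (dbl ε T).idxOf (P.pos b.1 + ε) < (dbl ε T).idxOf x := by omega
      have h3 : ¬ (dbl ε T).idxOf (P.pos c.1 + ε) < (dbl ε T).idxOf x := by omega
      left
      simp only [h1, h2, h3, if_false]
      refine ⟨fun _ => trivial, fun _ => trivial, fun _ => trivial, by decide⟩
  have z3 : ∀ i : ZMod 3, i = 0 ∨ i = 1 ∨ i = 2 := by decide
  have z01 : (0 : ZMod 3) ≠ 1 := by decide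
  have z02 : (0 : ZMod 3) ≠ 2 := by decide
  have z12 : (1 : ZMod 3) ≠ 2 := by decide
  -- the hexagon inequality
  have key := HH' (fun i => if i = 0 then (fun x => F210 x + 1 / 2) else if i = 1 then F021
      else F102) (fun i => if i = 0 then (fun x => F012 x - 1 / 2) else if i = 1 then F201
      else F120) ?_ ?_ ?_ ?_
  · have key' : (vminus.val false (dbl ε T) (fun x => F210 x + 1 / 2) -
        vminus.val false (dbl ε T) (fun x => F012 x - 1 / 2)) +
        (vminus.val false (dbl ε T) F021 - vminus.val false (dbl ε T) F201) +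
        (vminus.val false (dbl ε T) F102 - vminus.val false (dbl ε T) F120) ≤ 1 := by
      simpa [z01.symm, z02.symm, z12.symm] using key
    clear key
    have kp0 : vminus.val false (dbl ε T) (fun x => F210 x + 1 / 2) =
        vminus.val false (dbl ε T) F210 + 1 / 2 := vminus.val_add k210 _
    have km0 : vminus.val false (dbl ε T) (fun x => F012 x - 1 / 2) =
        vminus.val false (dbl ε T) F012 - 1 / 2 := by
      have := vminus.val_add k012 (-(1 / 2))
      simpa [sub_eq_add_neg] using this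
    rw [kp0, km0] at key'
    -- the signs
    have m1 : vminus.val false (dbl ε T) F201 ≤ vminus.val false (dbl ε T) F021 := by
      refine vminus.val_mono k201 k021 ?_
      intro x _
      rw [f201, f021]
      have t1 := bmon a.1 b.1 (qq P (sh3 a.1 b.1 c.1 2 0 1) b.1)
        (qq P (sh3 a.1 b.1 c.1 0 2 1) a.1) x iab
      have t2 := bmon a.1 b.1 (qq P (sh3 a.1 b.1 c.1 0 2 1) b.1)
        (qq P (sh3 a.1 b.1 c.1 2 0 1) a.1) x iab
      linarith
    have m2 : vminus.val false (dbl ε T) F120 ≤ vminus.val false (dbl ε T) F102 := by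
      refine vminus.val_mono k120 k102 ?_
      intro x _
      rw [f120, f102]
      have t1 := bmon b.1 c.1 (qq P (sh3 a.1 b.1 c.1 1 2 0) c.1)
        (qq P (sh3 a.1 b.1 c.1 1 0 2) b.1) x ibc
      have t2 := bmon b.1 c.1 (qq P (sh3 a.1 b.1 c.1 1 0 2) c.1)
        (qq P (sh3 a.1 b.1 c.1 1 2 0) b.1) x ibc
      linarith
    have m0 : vminus.val false (dbl ε T) F012 ≤ vminus.val false (dbl ε T) F210 + 1 := by
      refine vminus.val_mono_add k012 k210 1 ?_
      intro x _
      rw [f012, f210]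
      have t1 := bnn a.1 (qq P (sh3 a.1 b.1 c.1 0 1 2) a.1) x
      have t2 := bnn a.1 (qq P (sh3 a.1 b.1 c.1 2 1 0) a.1) x
      have t3 := bnn c.1 (qq P (sh3 a.1 b.1 c.1 0 1 2) c.1) x
      have t4 := bnn c.1 (qq P (sh3 a.1 b.1 c.1 2 1 0) c.1) x
      linarith [t1.2, t2.2, t3.1, t4.1]
    -- the phases at the leaves
    have v1 : F021 (P.pos c.1 + ε) = EO (P.pos c.1 + ε) := by
      rw [f021, b1 a.1 _ _ (iab.trans ibc), b1 b.1 _ _ ibc]; ring
    have v2 : F201 (P.pos c.1 + ε) = EO (P.pos c.1 + ε) := by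
      rw [f201, b1 a.1 _ _ (iab.trans ibc), b1 b.1 _ _ ibc]; ring
    have v3 : F102 (P.pos a.1 + ε) = EO (P.pos a.1 + ε) := by
      rw [f102, b0 b.1 _ _ iab, b0 c.1 _ _ (iab.trans ibc)]; ring
    have v4 : F120 (P.pos a.1 + ε) = EO (P.pos a.1 + ε) := by
      rw [f120, b0 b.1 _ _ iab, b0 c.1 _ _ (iab.trans ibc)]; ring
    have v5 : F210 (P.pos b.1 + ε) = EO (P.pos b.1 + ε) - 1 / 2 := by
      rw [f210, b1 a.1 _ _ iab, b0 c.1 _ _ ibc]; ring
    have v6 : F012 (P.pos b.1 + ε) = EO (P.pos b.1 + ε) + 1 / 2 := by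
      rw [f012, b1 a.1 _ _ iab, b0 c.1 _ _ ibc]; ring
    -- the sub-stars
    have hTS : ∀ r ∈ T, r ∈ S := fun r hr => hT.subset hr
    have L0 : ∀ {U : List (Fin (2 * h + 1) × List ℝ)} {q : Fin (2 * h + 1) × List ℝ},
        q ∈ U → q ∈ S → 0 < (dbl ε U).length := by
      intro U q hq hqS
      obtain ⟨l, hl⟩ := hS.ends q hqS
      obtain ⟨U1, U2, rfl⟩ := List.append_of_mem hq
      rw [dbl_append, dbl_cons, hl]
      simp only [List.length_append, sh_length, List.length_cons, List.length_nil,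
        List.length_reverse]
      omega
    have haS : a ∈ S := hTS a (by simp [hTd])
    have hbS : b ∈ S := hTS b (by simp [hTd])
    have na : a.1 ∉ (([] : List (Fin (2 * h + 1) × List ℝ)) ++
        (A ++ b :: (B ++ [c]))).map Prod.fst := by simpa using hn1
    have nb : b.1 ∉ ((a :: A) ++ (B ++ [c])).map Prod.fst := by
      intro hh
      obtain ⟨r, hr, he⟩ := List.mem_map.1 hh
      simp only [List.mem_append, List.mem_cons, List.not_mem_nil, or_false] at hr
      rcases hr with (rfl | hr) | hr | rfl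
      · exact hab he
      · exact (hA r hr).2.1 he
      · exact (hB r hr).2.1 he
      · exact hbc he.symm
    have nc : c.1 ∉ ((a :: (A ++ b :: B)) ++ ([] : List (Fin (2 * h + 1) × List ℝ))).map
        Prod.fst := by
      intro hh
      obtain ⟨r, hr, he⟩ := List.mem_map.1 hh
      simp only [List.mem_append, List.mem_cons, List.not_mem_nil, or_false] at hr
      rcases hr with rfl | hr | rfl | hr
      · exact hac he
      · exact (hA r hr).2.2 he
      · exact hbc he
      · exact (hB r hr).2.2 he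
    have s1 := crv_skip vminus hS hε h0 (S₁ := []) (S₂ := A ++ b :: (B ++ [c])) (q := a) hT
      (ea 0 2 1) (z := c.1) (ec 0 2 1) (fun i hi1 hi2 => by
        by_cases hib : i = b.1
        · rw [hib]; exact eb 0 2 1
        · exact eo 0 2 1 i hi2 hib hi1) na (L0 (q := b) (by simp) hbS) k021
    have s2 := crv_skip vminus hS hε h0 (S₁ := a :: A) (S₂ := B ++ [c]) (q := b) hT
      (eb 2 0 1) (z := c.1) (ec 2 0 1) (fun i hi1 hi2 => by
        by_cases hia : i = a.1
        · rw [hia]; exact ea 2 0 1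
        · exact eo 2 0 1 i hia hi2 hi1) nb (L0 (q := a) (by simp) haS) k201
    have s3 := crv_skip vminus hS hε h0 (S₁ := a :: A) (S₂ := B ++ [c]) (q := b) hT
      (eb 1 0 2) (z := a.1) (ea 1 0 2) (fun i hi1 hi2 => by
        by_cases hic : i = c.1
        · rw [hic]; exact ec 1 0 2
        · exact eo 1 0 2 i hi1 hi2 hic) nb (L0 (q := a) (by simp) haS) k102
    have s4 := crv_skip vminus hS hε h0 (S₁ := a :: (A ++ b :: B)) (S₂ := []) (q := c)
      (by rw [eT3]; exact hT) (ec 1 2 0) (z := a.1) (ea 1 2 0) (fun i hi1 hi2 => by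
        by_cases hib : i = b.1
        · rw [hib]; exact eb 1 2 0
        · exact eo 1 2 0 i hi1 hib hi2) nc (L0 (q := a) (by simp) haS) (by rw [eT3]; exact k120)
    have s5 := crv_skip vminus hS hε h0 (S₁ := a :: (A ++ b :: B)) (S₂ := []) (q := c)
      (by rw [eT3]; exact hT) (ec 2 1 0) (z := b.1) (eb 2 1 0) (fun i hi1 hi2 => by
        by_cases hia : i = a.1
        · rw [hia]; exact ea 2 1 0
        · exact eo 2 1 0 i hia hi1 hi2) nc (L0 (q := a) (by simp) haS) (by rw [eT3]; exact k210)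
    have s6 := crv_skip vminus hS hε h0 (S₁ := []) (S₂ := A ++ b :: (B ++ [c])) (q := a) hT
      (ea 0 1 2) (z := b.1) (eb 0 1 2) (fun i hi1 hi2 => by
        by_cases hic : i = c.1
        · rw [hic]; exact ec 0 1 2
        · exact eo 0 1 2 i hi2 hi1 hic) na (L0 (q := b) (by simp) hbS) k012
    rw [eT3, List.append_nil] at s4 s5
    rw [List.nil_append, List.nil_append] at s1 s6
    refine ⟨F021, F201, F102, F120, F210, F012, s1.1, s2.1, s3.1, s4.1, s5.1, s6.1, ?_⟩
    have w1 : OTri.rvT P vminus ε (A ++ b :: (B ++ [c])) F021 c.1 =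
        vminus.val false (dbl ε T) F021 - EO (P.pos c.1 + ε) := by
      unfold OTri.rvT; rw [s1.2, v1]
    have w2 : OTri.rvT P vminus ε (a :: (A ++ (B ++ [c]))) F201 c.1 =
        vminus.val false (dbl ε T) F201 - EO (P.pos c.1 + ε) := by
      unfold OTri.rvT
      rw [v2]
      congr 1
      exact s2.2
    have w3 : OTri.rvT P vminus ε (a :: (A ++ (B ++ [c]))) F102 a.1 =
        vminus.val false (dbl ε T) F102 - EO (P.pos a.1 + ε) := by
      unfold OTri.rvT
      rw [v3]
      congr 1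
      exact s3.2
    have w4 : OTri.rvT P vminus ε (a :: (A ++ b :: B)) F120 a.1 =
        vminus.val false (dbl ε T) F120 - EO (P.pos a.1 + ε) := by
      unfold OTri.rvT; rw [s4.2, v4]
    have w5 : OTri.rvT P vminus ε (a :: (A ++ b :: B)) F210 b.1 =
        vminus.val false (dbl ε T) F210 - (EO (P.pos b.1 + ε) - 1 / 2) := by
      unfold OTri.rvT; rw [s5.2, v5]
    have w6 : OTri.rvT P vminus ε (A ++ b :: (B ++ [c])) F012 b.1 =
        vminus.val false (dbl ε T) F012 - (EO (P.pos b.1 + ε) + 1 / 2) := by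
      unfold OTri.rvT; rw [s6.2, v6]
    rw [w1, w2, w3, w4, w5, w6]
    rw [abs_of_nonneg (by linarith), abs_of_nonneg (by linarith), abs_of_nonneg (by linarith)]
    linarith
  · intro i
    rcases z3 i with rfl | rfl | rfl
    · rw [if_pos rfl]; exact ⟨_, (k210.addE (1 / 2)).valid⟩
    · rw [if_neg z01.symm, if_pos rfl]; exact ⟨_, k021.valid⟩
    · rw [if_neg z02.symm, if_neg z12.symm]; exact ⟨_, k102.valid⟩
  · intro i
    rcases z3 i with rfl | rfl | rfl
    · rw [if_pos rfl]; exact ⟨_, (k012.addE (-(1 / 2))).valid⟩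
    · rw [if_neg z01.symm, if_pos rfl]; exact ⟨_, k201.valid⟩
    · rw [if_neg z02.symm, if_neg z12.symm]; exact ⟨_, k120.valid⟩
  · intro i x hx hu
    rcases hdown x hx hu with ⟨g1, g2, g3, g4⟩ | ⟨g1, g2, g3, g4⟩ | ⟨g1, g2, g3, g4⟩ |
      ⟨g1, g2, g3, g4⟩ <;> rcases z3 i with rfl | rfl | rfl <;> rw [g4]
    · simp [f210, g1, g2, g3]
    · simp [f021, g1, g2, g3, z01, z01.symm]
    · simp [f102, g1, g2, g3, z02, z02.symm, z12, z12.symm]
    · simp [f210, g1, g2, g3, z01, z01.symm]; ring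
    · simp [f021, g1, g2, g3, z01, z01.symm]
    · simp [f102, g1, g2, g3, z02, z02.symm, z12, z12.symm]
    · simp [f210, g1, g2, g3, z02, z02.symm]; ring
    · simp [f021, g1, g2, g3, z01, z01.symm, z12, z12.symm]; ring
    · simp [f102, g1, g2, g3, z02, z02.symm, z12, z12.symm]
    · simp [f210, g1, g2, g3]; ring
    · simp [f021, g1, g2, g3, z01, z01.symm]; ring
    · simp [f102, g1, g2, g3, z02, z02.symm, z12, z12.symm]; ring
  · intro i x hx hu
    rcases hdown x hx hu with ⟨g1, g2, g3, g4⟩ | ⟨g1, g2, g3, g4⟩ | ⟨g1, g2, g3, g4⟩ |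
      ⟨g1, g2, g3, g4⟩ <;> rcases z3 i with rfl | rfl | rfl <;> rw [g4]
    · simp [f012, g1, g2, g3]
    · simp [f201, g1, g2, g3, z01, z01.symm]
    · simp [f120, g1, g2, g3, z02, z02.symm, z12, z12.symm]
    · simp [f012, g1, g2, g3, z01, z01.symm]
    · simp [f201, g1, g2, g3, z01, z01.symm]; ring
    · simp [f120, g1, g2, g3, z02, z02.symm, z12, z12.symm]
    · simp [f012, g1, g2, g3, z02, z02.symm]
    · simp [f201, g1, g2, g3, z01, z01.symm, z12, z12.symm]; ring
    · simp [f120, g1, g2, g3, z02, z02.symm, z12, z12.symm]; ring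
    · simp [f012, g1, g2, g3]; ring
    · simp [f201, g1, g2, g3, z01, z01.symm]; ring
    · simp [f120, g1, g2, g3, z02, z02.symm, z12, z12.symm]; ring

end Vale.Agent.P040.H700
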