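import Vale.Agent.P040.H251.Class

/-!
# P040: moving masses across chords of a closed curve (helper700)

`r z` is a point of odd index of the list (first page `false`). If the mass below `r z` in the page
`q z` is increased by `δ z`, the phases behind the chord of the page `q z` at `r z` decrease by
`δ z`.
-/

set_option autoImplicit false

namespace Vale.Agent.P040.H700

open P040H251 Vale.Agent.P040.H906

/-- the mark (chord of the page `q` at `r`) is before `x` -/
def bef (L : List ℝ) (r : ℝ) (q : Bool) (x : ℝ) : Prop :=
  L.idxOf r < L.idxOf x ∨ (x = r ∧ q = false)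

open Classical in
/-- one mark: the change along the chords -/
theorem bef_step {L : List ℝ} (hL : CL L) {r : ℝ} (hr : r ∈ L) (ho : L.idxOf r % 2 = 1) (q : Bool)
    (δ : ℝ) (b : Bool) {x : ℝ} (hx : x ∈ L) :
    sg b * ((if bef L r q (fO false L b x) then δ else 0) - (if bef L r q x then δ else 0)) =
      (if q = b ∧ x = r then δ else 0) - (if q = b ∧ fO false L b x = r then δ else 0) +
      (if b = true ∧ (L.idxOf x = 0 ∨ L.idxOf (fO false L b x) = 0) then
        (if L.idxOf x = 0 then δ else -δ) else 0) := by
  obtain ⟨i, hi, rfl⟩ := ex_idx hx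
  obtain ⟨N, hN, rfl⟩ := ex_idx hr
  rw [idx_g hL.nodup hN] at ho
  have hev := hL.even
  rw [f_g hL false b hi]
  have hpi : pI L.length false b i < L.length := by
    cases b
    · show uI i < _
      exact uI_lt hev hi
    · show lI L.length i < _
      rcases lI_cases L.length i with h | h | h | h <;> omega
  have ei : ∀ j, j < L.length → (bef L (g L N) q (g L j) ↔ (N < j ∨ (j = N ∧ q = false))) := by
    intro j hj
    unfold bef
    rw [idx_g hL.nodup hN, idx_g hL.nodup hj, g_inj_iff hL.nodup hj hN]
  simp only [ei i hi, ei _ hpi, g_inj_iff hL.nodup hi hN, g_inj_iff hL.nodup hpi hN,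
    idx_g hL.nodup hi, idx_g hL.nodup hpi]
  cases b
  · have e : pI L.length false false i = uI i := rfl
    rw [e]
    simp only [sg, Bool.false_eq_true, if_false, false_and]
    rcases uI_cases i with ⟨h1, h2⟩ | ⟨h1, h2⟩
    · rw [h2]
      cases q
      · by_cases c : i + 1 = N
        · subst c
          simp
        · have c1 : i ≠ N := by omega
          by_cases c2 : N < i
          · simp [c, c1, c2, show N < i + 1 by omega]
          · simp [c, c1, c2, show ¬ N < i + 1 by omega]
      · have c1 : i ≠ N := by omega
        by_cases c2 : N < i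
        · simp [c2, show N < i + 1 by omega]
        · simp [c2, show ¬ N < i + 1 by omega]
    · rw [h2]
      cases q
      · by_cases c : i = N
        · subst c
          simp [show i - 1 ≠ i by omega, show ¬ i < i - 1 by omega]
        · have c1 : i - 1 ≠ N := by omega
          by_cases c2 : N < i
          · simp [c, c1, c2, show N < i - 1 by omega]
          · simp [c, c1, c2, show ¬ N < i - 1 by omega]
      · by_cases c : i = N
        · subst c
          simp [show ¬ i < i - 1 by omega]
        · by_cases c2 : N < i
          · simp [c2, show N < i - 1 by omega]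
          · simp [c2, show ¬ N < i - 1 by omega]
  · have e : pI L.length false true i = lI L.length i := rfl
    rw [e]
    simp only [sg, if_true, true_and]
    rcases lI_cases L.length i with ⟨h1, h2, h3⟩ | ⟨h1, h2, h3⟩ | ⟨h1, h3⟩ | ⟨h1, h2, h3⟩
    · rw [h3]
      have c0 : i ≠ 0 := by omega
      cases q
      · have c3 : (N < i ∨ i = N) := by omega
        simp [c0, show ¬ (0 = N) by omega, c3]
      · by_cases c : i = N
        · subst c
          simp [c0, show ¬ (0 = i) by omega]
        · simp [c, c0, show ¬ (0 = N) by omega, show N < i by omega]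
    · rw [h3]
      have c0 : i ≠ 0 := by omega
      cases q
      · by_cases c : i = N
        · subst c
          simp [c0]
        · by_cases c2 : N < i
          · simp [c, c0, c2, show N < i + 1 by omega, show ¬ (i + 1 = N) by omega]
          · simp [c, c0, c2, show ¬ N < i + 1 by omega, show ¬ (i + 1 = N) by omega]
      · by_cases c : i = N
        · subst c
          simp [c0]
        · by_cases c2 : N < i
          · simp [c, c0, c2, show N < i + 1 by omega, show ¬ (i + 1 = N) by omega]
          · simp [c, c0, c2, show ¬ N < i + 1 by omega, show ¬ (i + 1 = N) by omega]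
    · subst h1
      rw [h3]
      have c0 : L.length - 1 ≠ 0 := by omega
      cases q
      · have c3 : (N < L.length - 1 ∨ L.length - 1 = N) := by omega
        simp [show ¬ (0 = N) by omega, c3]
      · by_cases c : L.length - 1 = N
        · simp [c, show ¬ (0 = N) by omega]
        · simp [c, show ¬ (0 = N) by omega, show N < L.length - 1 by omega]
    · rw [h3]
      have c0 : i - 1 ≠ 0 := by omega
      cases q
      · by_cases c : i - 1 = N
        · subst c
          simp [h2, c0, show i - 1 < i by omega]
        · by_cases c2 : N < i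
          · simp [c, h2, c0, c2, show N < i - 1 by omega, show ¬ (i = N) by omega]
          · simp [c, h2, c0, c2, show ¬ N < i - 1 by omega, show ¬ (i = N) by omega]
      · by_cases c : i - 1 = N
        · subst c
          simp [h2, c0, show i - 1 < i by omega, show ¬ (i = i - 1) by omega]
        · by_cases c2 : N < i
          · simp [c, h2, c0, c2, show N < i - 1 by omega, show ¬ (i = N) by omega]
          · simp [c, h2, c0, c2, show ¬ N < i - 1 by omega, show ¬ (i = N) by omega]

open Classical in
/-- **Moving masses across chords.** -/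
theorem crv_shift {ι : Type*} [Fintype ι] {D D' : Dat ℝ} {L : List ℝ} {E : ℝ → ℝ}
    (hC : Crv D false L E) (hM : D'.M = D.M) (r : ι → ℝ) (q : ι → Bool) (δ : ι → ℝ)
    (hr : ∀ z, δ z ≠ 0 → r z ∈ L ∧ L.idxOf (r z) % 2 = 1) (hs : ∑ z, δ z = 0)
    (hD : ∀ b, ∀ x ∈ L, D'.C b (D'.lab x) = D.C b (D.lab x) -
      ∑ z, if q z = b ∧ x = r z then δ z else 0) :
    Crv D' false L (fun x => E x + ∑ z, if bef L (r z) (q z) x then δ z else 0) := by
  refine ⟨hC.cl, hC.pl, ?_⟩
  intro b x hx
  have hfx := f_mem hC.cl false b hx
  rw [hD b x hx, hD b _ hfx, hM]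
  have h0 := hC.inc b x hx
  have key : sg b * ((∑ z, if bef L (r z) (q z) (fO false L b x) then δ z else 0) -
      ∑ z, if bef L (r z) (q z) x then δ z else 0) =
      (∑ z, if q z = b ∧ x = r z then δ z else 0) -
        ∑ z, if q z = b ∧ fO false L b x = r z then δ z else 0 := by
    rw [← Finset.sum_sub_distrib, Finset.mul_sum, ← Finset.sum_sub_distrib]
    have h1 : ∀ z, sg b * ((if bef L (r z) (q z) (fO false L b x) then δ z else 0) -
        if bef L (r z) (q z) x then δ z else 0) =
        ((if q z = b ∧ x = r z then δ z else 0) - if q z = b ∧ fO false L b x = r z then δ z else 0)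
        + (if b = true ∧ (L.idxOf x = 0 ∨ L.idxOf (fO false L b x) = 0) then
          (if L.idxOf x = 0 then δ z else -δ z) else 0) := by
      intro z
      by_cases hz : δ z = 0
      · simp [hz]
      · obtain ⟨h2, h3⟩ := hr z hz
        exact bef_step hC.cl h2 h3 (q z) (δ z) b hx
    rw [Finset.sum_congr rfl fun z _ => h1 z, Finset.sum_add_distrib]
    have h4 : (∑ z, (if b = true ∧ (L.idxOf x = 0 ∨ L.idxOf (fO false L b x) = 0) then
          (if L.idxOf x = 0 then δ z else -δ z) else 0)) = 0 := by
      split_ifs
      · exact hs
      · rw [Finset.sum_neg_distrib, hs, neg_zero]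
      · simp
    rw [h4, add_zero]
  have e : ∀ u v u' v' : ℝ, sg b * (u + u' - (v + v')) = sg b * (u - v) + sg b * (u' - v') := by
    intro u v u' v'; ring
  rw [e, h0, key]
  ring

end Vale.Agent.P040.H700
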