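import Vale.Agent.P040.H700.HexDef
import Vale.Agent.P040.H700.Shift
import Vale.Agent.P040.H908.TriVal
import Vale.Agent.P040.H242.DblWord

/-!
# P040, odd layer: mass functions of the shares, existence of the phases (helper700)
-/

set_option autoImplicit false

namespace Vale.Agent.P040.H700

open P040H251 H682 Pst H908

variable {h : ℕ} {P : OData h}

/-- the leaves are separated -/
def SepL (P : OData h) (ε : ℝ) : Prop := ∀ i j, i ≠ j → 3 * ε < |P.pos i - P.pos j|

theorem sepL_of {S : List (Fin (2 * h + 1) × List ℝ)} (hS : IsStar P.pos S) {ε : ℝ}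
    (hε : Sepd ε (pts S)) : SepL P ε := by
  intro i j hij
  exact hε _ (leaf_pts hS i) _ (leaf_pts hS j) fun hh => hij (P.inj hh)

/-- the mass to the left of `x` -/
noncomputable def mf (P : OData h) (κ : Fin (2 * h + 1) → ℕ) (ε : ℝ) (b : Bool) (x : ℝ) : ℝ :=
  ∑ i, ((if P.pos i < x then inn P κ i b else 0) +
    (if P.pos i + 2 * ε < x then P.mu i b - inn P κ i b else 0))

theorem dk_C {ε : ℝ} (h0 : 0 < ε) (hs : SepL P ε) (κ : Fin (2 * h + 1) → ℕ) (b : Bool) (x : ℝ) :
    (DK P κ ε).C b ((DK P κ ε).lab x) = mf P κ ε b x := by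
  show cK P κ b (P.rk x + P.rk (x - 2 * ε)) = _
  unfold cK mf
  apply Finset.sum_congr rfl
  intro i _
  have e1 : 2 * P.rk (P.pos i) < P.rk x + P.rk (x - 2 * ε) ↔ P.pos i < x := by
    constructor
    · intro hh
      by_contra hc
      have h1 := P.rk_mono (not_lt.1 hc)
      have h2 := P.rk_mono (show x - 2 * ε ≤ P.pos i by linarith)
      omega
    · intro hh
      have h1 := (P.rk_lt_iff i x).2 hh
      have h2 : P.rk (P.pos i) ≤ P.rk (x - 2 * ε) := by
        apply Finset.card_le_card
        intro j hj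
        rw [Finset.mem_filter] at hj ⊢
        refine ⟨hj.1, ?_⟩
        have h3 := hs i j (by rintro rfl; exact lt_irrefl _ hj.2)
        rw [abs_of_pos (by linarith [hj.2])] at h3
        linarith
      omega
  have e2 : 2 * P.rk (P.pos i) + 1 < P.rk x + P.rk (x - 2 * ε) ↔ P.pos i + 2 * ε < x := by
    constructor
    · intro hh
      by_contra hc
      have h1 := P.rk_mono (show x - 2 * ε ≤ P.pos i by linarith)
      have h2 : P.rk x ≤ P.rk (P.pos i) + 1 := by
        have h4 : (Finset.univ.filter fun j => P.pos j < x) ⊆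
            insert i (Finset.univ.filter fun j => P.pos j < P.pos i) := by
          intro j hj
          rw [Finset.mem_insert, Finset.mem_filter]
          rw [Finset.mem_filter] at hj
          by_cases hji : j = i
          · exact Or.inl hji
          · right
            refine ⟨Finset.mem_univ _, ?_⟩
            by_contra hc2
            have h3 := hs j i hji
            rw [abs_of_nonneg (by linarith)] at h3
            linarith [hj.2]
        have h5 := Finset.card_le_card h4
        rw [Finset.card_insert_of_notMem (by simp)] at h5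
        exact h5
      omega
    · intro hh
      have h1 := (P.rk_lt_iff i x).2 (by linarith)
      have h2 := (P.rk_lt_iff i (x - 2 * ε)).2 (by linarith)
      omega
  simp only [e1, e2]

theorem dk_C' {ε : ℝ} (h0 : 0 < ε) (hs : SepL P ε) (κ : Fin (2 * h + 1) → ℕ) (b : Bool) :
    (fun x => (DK P κ ε).C b ((DK P κ ε).lab x)) = mf P κ ε b :=
  funext fun x => dk_C h0 hs κ b x

/-- the mass function has the same value at two points without a leaf near -/
theorem mf_congr {ε : ℝ} {κ : Fin (2 * h + 1) → ℕ} {b : Bool} {x y : ℝ}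
    (h1 : ∀ i, P.pos i < x ↔ P.pos i < y)
    (h2 : ∀ i, P.pos i + 2 * ε < x ↔ P.pos i + 2 * ε < y) : mf P κ ε b x = mf P κ ε b y := by
  unfold mf
  apply Finset.sum_congr rfl
  intro i _
  simp only [h1 i, h2 i]

/-- the mass inside the finger of `z` -/
theorem mf_leaf {ε : ℝ} (h0 : 0 < ε) (hs : SepL P ε) (κ : Fin (2 * h + 1) → ℕ) (b : Bool)
    (z : Fin (2 * h + 1)) :
    mf P κ ε b (P.pos z + ε) - mf P κ ε b (P.pos z - ε) = inn P κ z b := by
  unfold mf
  rw [← Finset.sum_sub_distrib]
  rw [Finset.sum_eq_single z]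
  · rw [if_pos (by linarith), if_neg (by linarith), if_neg (by linarith), if_neg (by linarith)]
    ring
  · intro i _ hi
    have h3 := hs i z hi
    have e1 : P.pos i < P.pos z + ε ↔ P.pos i < P.pos z - ε := by
      constructor
      · intro hh
        by_contra hc
        rcases lt_or_ge (P.pos i) (P.pos z) with h4 | h4
        · rw [abs_of_neg (by linarith)] at h3; linarith
        · rw [abs_of_nonneg (by linarith)] at h3; linarith
      · intro hh; linarith
    have e2 : P.pos i + 2 * ε < P.pos z + ε ↔ P.pos i + 2 * ε < P.pos z - ε := by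
      constructor
      · intro hh
        by_contra hc
        rcases lt_or_ge (P.pos i) (P.pos z) with h4 | h4
        · rw [abs_of_neg (by linarith)] at h3; linarith
        · linarith
      · intro hh; linarith
    simp only [e1, e2]
    ring
  · intro hh; exact absurd (Finset.mem_univ _) hh

theorem inn_add {κ : Fin (2 * h + 1) → ℕ} {z : Fin (2 * h + 1)} (hk : κ z ≤ 2) :
    inn P κ z true + inn P κ z false = (κ z : ℝ) / 2 := by
  unfold inn
  rcases Nat.lt_or_ge (κ z) 1 with h1 | h1
  · have e : κ z = 0 := by omega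
    rw [if_pos e, if_pos e, e]
    simp
  · rcases Nat.lt_or_ge (κ z) 2 with h2 | h2
    · have e : κ z = 1 := by omega
      rw [if_neg (by omega), if_pos e, if_neg (by omega), if_pos e, e, P.nin_add]
      simp
    · have e : κ z = 2 := by omega
      rw [if_neg (by omega), if_neg (by omega), if_neg (by omega), if_neg (by omega), e, P.mu_add]
      norm_num

section star

variable {S T : List (Fin (2 * h + 1) × List ℝ)} {ε : ℝ}

theorem al_dk (hS : IsStar P.pos S) (hε : Sepd ε (pts S)) (h0 : 0 < ε)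
    {κ : Fin (2 * h + 1) → ℕ} (hk : ∀ z, κ z ≤ 2) {q : Fin (2 * h + 1) × List ℝ} (hq : q ∈ S) :
    al ε (fun x => (DK P κ ε).C true ((DK P κ ε).lab x))
      (fun x => (DK P κ ε).C false ((DK P κ ε).lab x)) q.2 = (κ q.1 : ℝ) / 2 := by
  have hs := sepL_of hS hε
  obtain ⟨l, hl⟩ := hS.ends q hq
  unfold al
  rw [lst_of hl, dk_C' h0 hs, dk_C' h0 hs]
  rw [mf_leaf h0 hs, mf_leaf h0 hs, inn_add (hk _)]

/-- points of arms before the leaf are far from all leaves -/
theorem far_leaf (hS : IsStar P.pos S) (hε : Sepd ε (pts S)) {q : Fin (2 * h + 1) × List ℝ}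
    (hq : q ∈ S) {p : ℝ} (hp : p ∈ q.2.dropLast) (i : Fin (2 * h + 1)) :
    3 * ε < |p - P.pos i| := by
  have hpq : p ∈ q.2 := List.mem_of_mem_dropLast hp
  have hpS : p ∈ pts S := List.mem_flatMap.2 ⟨q, hq, hpq⟩
  refine hε _ hpS _ (leaf_pts hS i) ?_
  rintro rfl
  obtain ⟨q', hq', rfl⟩ := List.mem_map.1 (hS.full i)
  obtain ⟨l', hl'⟩ := hS.ends q' hq'
  obtain ⟨l, hl⟩ := hS.ends q hq
  have hn := hS.nodup
  have hqn : q.2.Nodup := by
    rw [pts_eq, List.nodup_flatten] at hn
    exact hn.1 _ (List.mem_map_of_mem hq)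
  have hne2 : q.2 ≠ q'.2 := by
    intro h
    rw [h, hl', List.dropLast_concat] at hp
    rw [h, hl'] at hqn
    exact (List.nodup_append.1 hqn).2.2 _ hp _ (by simp) rfl
  rw [pts_eq, List.nodup_flatten] at hn
  have : Std.Symm (List.Disjoint (α := ℝ)) := ⟨fun _ _ h => h.symm⟩
  have := hn.2.forall (List.mem_map_of_mem hq) (List.mem_map_of_mem hq') hne2
  exact this hpq (by rw [hl']; simp)

theorem lab_dk (hS : IsStar P.pos S) (hε : Sepd ε (pts S)) (h0 : 0 < ε)
    (κ : Fin (2 * h + 1) → ℕ) {q : Fin (2 * h + 1) × List ℝ} (hq : q ∈ S) {p : ℝ}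
    (hp : p ∈ q.2.dropLast) : (DK P κ ε).lab (p - ε) = (DK P κ ε).lab (p + ε) := by
  show P.rk (p - ε) + P.rk (p - ε - 2 * ε) = P.rk (p + ε) + P.rk (p + ε - 2 * ε)
  have hf := far_leaf hS hε hq hp
  have e1 : P.rk (p - ε) = P.rk (p + ε) := by
    apply P.rk_congr (by linarith)
    intro i hi
    have := hf i
    rcases lt_or_ge p (P.pos i) with h4 | h4
    · rw [abs_of_neg (by linarith)] at this; linarith [hi.2]
    · rw [abs_of_nonneg (by linarith)] at this; linarith [hi.1]
  have e2 : P.rk (p - ε - 2 * ε) = P.rk (p + ε - 2 * ε) := by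
    apply P.rk_congr (by linarith)
    intro i hi
    have := hf i
    rcases lt_or_ge p (P.pos i) with h4 | h4
    · linarith [hi.2]
    · rw [abs_of_nonneg (by linarith)] at this; linarith [hi.1]
  rw [e1, e2]

/-- the data of 908 for the shares `κ` -/
theorem subS_dk (hS : IsStar P.pos S) (hT : T.Sublist S) (hε : Sepd ε (pts S)) (h0 : 0 < ε)
    {κ : Fin (2 * h + 1) → ℕ} (hk : ∀ z, κ z ≤ 2) :
    SubS ε (DK P κ ε) (T.map fun q => (κ q.1 : ℝ) / 2).sum T := by
  have hTS : ∀ q ∈ T, q ∈ S := fun q hq => hT.subset hq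
  have hsub := pts_sublist hT
  have hnT : (pts T).Nodup := hS.nodup.sublist hsub
  have hlab : ∀ q ∈ T, ∀ p ∈ q.2.dropLast, (DK P κ ε).lab (p - ε) = (DK P κ ε).lab (p + ε) :=
    fun q hq p hp => lab_dk hS hε h0 κ (hTS q hq) hp
  refine ⟨h0, ⟨?_, ?_, ?_⟩, hlab, ?_, fun c a b a' b' h h' => hS.dbl_nc hT hε h0 h h', ?_⟩
  · intro l hl
    obtain ⟨q, hq, rfl⟩ := List.mem_map.1 hl
    obtain ⟨l', hl'⟩ := hS.ends q (hTS q hq)
    refine ⟨?_, ?_, ?_, ?_, ?_⟩
    · rw [lst_of hl', hl']; simp
    · have hn := hnT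
      rw [pts_eq, List.nodup_flatten] at hn
      exact hn.1 _ hl
    · exact hε.mono fun p hp => List.mem_flatMap.2 ⟨q, hTS q hq, hp⟩
    · intro p hp
      rw [hlab q hq p hp]
    · intro p hp
      rw [hlab q hq p hp]
  · rw [← pts_eq]; exact hnT
  · rw [← pts_eq]; exact hε.mono fun p hp => hsub.subset hp
  · rw [List.map_map]
    congr 1
    apply List.map_congr_left
    intro q hq
    exact al_dk hS hε h0 hk (hTS q hq)
  · have hc : Pst.Cyc (fsts S) := hS.cyc
    exact Pst.Cyc.sublist hc (List.Sublist.map _ hT)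

end star

end Vale.Agent.P040.H700
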