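import Vale.Agent.P040.H700.HexPh
import Vale.Agent.P040.H251.Plus2

/-!
# P040, odd layer: an empty finger is removed; the data of the value (helper700)
-/

set_option autoImplicit false

namespace Vale.Agent.P040.H700

open P040H251 H682 Pst H908

variable {h : ℕ} {P : OData h} {S T : List (Fin (2 * h + 1) × List ℝ)} {ε : ℝ}

/-- the mass function of the data `DC z (pos z + 2 ε)` -/
theorem dc_C (h0 : 0 < ε) (hs : SepL P ε) (z : Fin (2 * h + 1)) (b : Bool) (x : ℝ) :
    (P.DC z (P.pos z + 2 * ε)).C b ((P.DC z (P.pos z + 2 * ε)).lab x) =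
      ∑ i, if i = z then ((if P.pos z < x then P.nin z b else 0) +
        (if P.pos z + 2 * ε < x then P.mu z b - P.nin z b else 0))
        else (if P.pos i < x then P.mu i b else 0) := by
  show P.cc z b (P.rk x + if P.pos z + 2 * ε < x then 1 else 0) = _
  have hcum : ∀ y : ℝ, P.cum b (P.rk y) = ∑ i, if P.pos i < y then P.mu i b else 0 := by
    intro y
    unfold OData.cum
    rw [Finset.sum_filter]
    apply Finset.sum_congr rfl
    intro i _
    simp only [P.rk_lt_iff]
  have hz : ∀ f g : Fin (2 * h + 1) → ℝ, (∀ i, i ≠ z → f i = g i) → f z = g z →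
      ∑ i, f i = ∑ i, g i := by
    intro f g h1 h2
    apply Finset.sum_congr rfl
    intro i _
    by_cases hi : i = z
    · rw [hi, h2]
    · exact h1 i hi
  unfold OData.cc
  rcases le_or_gt x (P.pos z) with h1 | h1
  · rw [if_neg (show ¬ P.pos z + 2 * ε < x by linarith), add_zero, if_pos (P.rk_mono h1), hcum]
    apply hz
    · intro i hi; rw [if_neg hi]
    · rw [if_pos rfl, if_neg (by linarith), if_neg (by linarith), if_neg (by linarith), add_zero]
  · have h2 := (P.rk_lt_iff z x).2 h1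
    rcases le_or_gt x (P.pos z + 2 * ε) with h3 | h3
    · have h4 : P.rk x = P.rk (P.pos z) + 1 := by
        apply P.rk_succ z h1
        intro i hi
        have h5 := hs i z (by rintro rfl; exact lt_irrefl _ hi.1)
        rw [abs_of_pos (by linarith [hi.1])] at h5
        linarith [hi.2]
      rw [if_neg (show ¬ P.pos z + 2 * ε < x by linarith), add_zero, if_neg (by omega), if_pos h4,
        hcum]
      have h6 : P.nin z b = ∑ i, if i = z then P.nin z b else 0 := by
        rw [Finset.sum_ite_eq', if_pos (Finset.mem_univ _)]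
      conv_lhs => rw [h6, ← Finset.sum_add_distrib]
      apply hz
      · intro i hi
        rw [if_neg hi, if_neg hi, add_zero]
        have e : P.pos i < P.pos z ↔ P.pos i < x := by
          constructor
          · intro hh; linarith
          · intro hh
            by_contra hc
            have h5 := hs i z hi
            rw [abs_of_nonneg (by linarith)] at h5
            linarith
        simp only [e]
      · rw [if_neg (lt_irrefl _), if_pos rfl, if_pos rfl, if_pos h1, if_neg (by linarith)]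
        ring
    · rw [if_pos h3, if_neg (by omega), if_neg (by omega), Nat.add_sub_cancel, hcum]
      apply hz
      · intro i hi; rw [if_neg hi]
      · rw [if_pos rfl, if_pos h1, if_pos h1, if_pos h3]
        ring

/-- the points of the list are the leaf points only of the arms of the list -/
theorem ne_leaf (hS : IsStar P.pos S) (hε : Sepd ε (pts S)) (h0 : 0 < ε)
    (hT : ∀ q ∈ T, q ∈ S) {x : ℝ} (hx : x ∈ dbl ε T) {i : Fin (2 * h + 1)}
    (hi : i ∉ T.map Prod.fst) : x ≠ P.pos i + ε := by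
  obtain ⟨q, hq, p, hp, σ, hσ, rfl⟩ := mem_dbl hx
  have hpS : p ∈ pts S := List.mem_flatMap.2 ⟨q, hT q hq, hp⟩
  rw [abs_of_pos h0] at hσ
  have h4 := abs_le.1 hσ.le
  have hpi : p ≠ P.pos i := by
    obtain ⟨l, hl⟩ := hS.ends q (hT q hq)
    rw [hl, List.mem_append, List.mem_singleton] at hp
    rcases hp with hp | hp
    · intro hh
      have h5 := far_leaf hS hε (hT q hq) (p := p) (by rw [hl]; simpa using hp) i
      rw [hh, sub_self, abs_zero] at h5
      linarith
    · rw [hp]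
      intro hh
      exact hi (List.mem_map.2 ⟨q, hq, P.inj hh⟩)
  have h3 := hε _ hpS _ (leaf_pts hS i) hpi
  intro hh
  rcases lt_or_ge p (P.pos i) with h5 | h5
  · rw [abs_of_neg (by linarith)] at h3; linarith
  · rw [abs_of_nonneg (by linarith)] at h3; linarith

/-- the mass functions agree on the list of the sub-star -/
theorem mf_eq_dc (hS : IsStar P.pos S) (hε : Sepd ε (pts S)) (h0 : 0 < ε)
    (hT : ∀ q ∈ T, q ∈ S) {κ : Fin (2 * h + 1) → ℕ} {z : Fin (2 * h + 1)} (hz : κ z = 1)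
    (hk : ∀ i, i ≠ z → κ i = 2 ∨ (κ i = 0 ∧ i ∉ T.map Prod.fst)) (b : Bool) {x : ℝ}
    (hx : x ∈ dbl ε T) :
    (P.DC z (P.pos z + 2 * ε)).C b ((P.DC z (P.pos z + 2 * ε)).lab x) = mf P κ ε b x := by
  rw [dc_C h0 (sepL_of hS hε)]
  unfold mf
  apply Finset.sum_congr rfl
  intro i _
  by_cases hi : i = z
  · subst hi
    rw [if_pos rfl]
    have e : inn P κ i b = P.nin i b := by unfold inn; rw [if_neg (by omega), if_pos hz]
    rw [e]
  · rw [if_neg hi]
    rcases hk i hi with h2 | ⟨h2, h3⟩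
    · have e : inn P κ i b = P.mu i b := by unfold inn; rw [if_neg (by omega), if_neg (by omega)]
      rw [e]
      simp
    · have e : inn P κ i b = 0 := by unfold inn; rw [if_pos h2]
      rw [e]
      have h4 := ne_leaf hS hε h0 hT hx h3
      rcases near_leaf hS hε h0 hT hx i with ⟨g1, g2, g3⟩ | ⟨g1, g2, g3⟩ | ⟨g1, g2, g3⟩
      · exact absurd g3 h4
      · rw [if_neg g1, if_neg g1, if_neg g2]; simp
      · rw [if_pos g1, if_pos g1, if_pos g2]; simp

/-- the labels with an empty finger closed -/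
noncomputable def DX (P : OData h) (κ : Fin (2 * h + 1) → ℕ) (ε z : ℝ) : P040H251.Dat ℝ where
  lab := fun x => if z - ε < x ∧ x ≤ z + 2 * ε then (DK P κ ε).lab (z - ε) else (DK P κ ε).lab x
  mono := by
    intro x y hxy
    show (if z - ε < x ∧ x ≤ z + 2 * ε then (DK P κ ε).lab (z - ε) else (DK P κ ε).lab x) ≤
      if z - ε < y ∧ y ≤ z + 2 * ε then (DK P κ ε).lab (z - ε) else (DK P κ ε).lab y
    split_ifs with h1 h2 h2
    · exact le_rfl
    · exact (DK P κ ε).mono (by linarith [h1.1])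
    · apply (DK P κ ε).mono
      by_contra hc
      exact h1 ⟨by linarith, by linarith [h2.2]⟩
    · exact (DK P κ ε).mono hxy
  C := (DK P κ ε).C
  Cmono := (DK P κ ε).Cmono
  M := (DK P κ ε).M
  pos := (DK P κ ε).pos
  tot := (DK P κ ε).tot

/-- **An empty finger is removed.** -/
theorem crv_skip (V : VApi ℝ) (hS : IsStar P.pos S) (hε : Sepd ε (pts S)) (h0 : 0 < ε)
    {S₁ S₂ : List (Fin (2 * h + 1) × List ℝ)} {q : Fin (2 * h + 1) × List ℝ}
    (hT : (S₁ ++ q :: S₂).Sublist S) {κ : Fin (2 * h + 1) → ℕ} (hq : κ q.1 = 0)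
    {z : Fin (2 * h + 1)} (hz : κ z = 1) (hk : ∀ i, i ≠ z → i ≠ q.1 → κ i = 2)
    (hqn : q.1 ∉ (S₁ ++ S₂).map Prod.fst)
    (hne : 0 < (dbl ε (S₁ ++ S₂)).length) {E : ℝ → ℝ}
    (hC : Crv (DK P κ ε) false (dbl ε (S₁ ++ q :: S₂)) E) :
    Crv (P.DC z (P.pos z + 2 * ε)) false (dbl ε (S₁ ++ S₂)) E ∧
      V.val false (dbl ε (S₁ ++ S₂)) E = V.val false (dbl ε (S₁ ++ q :: S₂)) E := by
  have hs := sepL_of hS hε
  have hqS : q ∈ S := hT.subset (by simp)
  have hTS : ∀ r ∈ S₁ ++ q :: S₂, r ∈ S := fun r hr => hT.subset hr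
  obtain ⟨l, hl⟩ := hS.ends q hqS
  have hdrop : q.2.dropLast = l := by rw [hl]; simp
  have hinn : ∀ b, mf P κ ε b (P.pos q.1 + ε) = mf P κ ε b (P.pos q.1 - ε) := by
    intro b
    have h1 := mf_leaf h0 hs κ b q.1
    have h2 : inn P κ q.1 b = 0 := by unfold inn; rw [if_pos hq]
    linarith
  have c1 : Crv (DX P κ ε (P.pos q.1)) false (dbl ε (S₁ ++ q :: S₂)) E := by
    refine crv_congr hC rfl ?_
    intro b x hx
    show (DK P κ ε).C b (if P.pos q.1 - ε < x ∧ x ≤ P.pos q.1 + 2 * ε then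
      (DK P κ ε).lab (P.pos q.1 - ε) else (DK P κ ε).lab x) = _
    split_ifs with h1
    · rcases near_leaf hS hε h0 hTS hx q.1 with ⟨g1, g2, g3⟩ | ⟨g1, g2, g3⟩ | ⟨g1, g2, g3⟩
      · rw [g3, dk_C h0 hs, dk_C h0 hs, hinn]
      · exfalso
        exact dbl_gap hε h0 hTS (leaf_pts hS q.1) hx ⟨h1.1, by linarith⟩
      · linarith [h1.2]
    · rfl
  have hlab : ∀ p ∈ q.2, (DX P κ ε (P.pos q.1)).lab (p - ε) =
      (DX P κ ε (P.pos q.1)).lab (p + ε) := by
    intro p hp
    show (if P.pos q.1 - ε < p - ε ∧ p - ε ≤ P.pos q.1 + 2 * ε then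
      (DK P κ ε).lab (P.pos q.1 - ε) else (DK P κ ε).lab (p - ε)) =
      if P.pos q.1 - ε < p + ε ∧ p + ε ≤ P.pos q.1 + 2 * ε then
      (DK P κ ε).lab (P.pos q.1 - ε) else (DK P κ ε).lab (p + ε)
    rw [hl, List.mem_append, List.mem_singleton] at hp
    rcases hp with hp | hp
    · have hp' : p ∈ q.2.dropLast := by rw [hdrop]; exact hp
      have h5 := far_leaf hS hε hqS hp' q.1
      have h6 := lab_dk hS hε h0 κ hqS hp'
      rcases lt_or_ge p (P.pos q.1) with h7 | h7
      · rw [abs_of_neg (by linarith)] at h5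
        rw [if_neg (by rintro ⟨g1, g2⟩; linarith), if_neg (by rintro ⟨g1, g2⟩; linarith), h6]
      · rw [abs_of_nonneg (by linarith)] at h5
        rw [if_neg (by rintro ⟨g1, g2⟩; linarith), if_neg (by rintro ⟨g1, g2⟩; linarith), h6]
    · rw [hp, if_neg (by rintro ⟨g1, g2⟩; linarith), if_pos ⟨by linarith, by linarith⟩]
  obtain ⟨c2, c3⟩ := V.dbl_finger (hε.mono fun p hp => (pts_sublist hT).subset hp) h0 hlab hne c1
  refine ⟨?_, c3⟩
  refine crv_congr c2 rfl ?_
  intro b x hx
  have hTS' : ∀ r ∈ S₁ ++ S₂, r ∈ S := by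
    intro r hr
    apply hTS
    simp only [List.mem_append, List.mem_cons] at hr ⊢
    tauto
  rw [mf_eq_dc hS hε h0 hTS' hz (fun i hi => by
    by_cases h1 : i = q.1
    · subst h1; exact Or.inr ⟨hq, hqn⟩
    · exact Or.inl (hk i hi h1)) b hx]
  show _ = (DK P κ ε).C b (if P.pos q.1 - ε < x ∧ x ≤ P.pos q.1 + 2 * ε then
    (DK P κ ε).lab (P.pos q.1 - ε) else (DK P κ ε).lab x)
  rw [if_neg, dk_C h0 hs]
  rintro ⟨g1, g2⟩
  have h4 := ne_leaf hS hε h0 hTS' hx hqn
  rcases near_leaf hS hε h0 hTS' hx q.1 with ⟨k1, k2, k3⟩ | ⟨k1, k2, k3⟩ | ⟨k1, k2, k3⟩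
  · exact h4 k3
  · exact dbl_gap hε h0 hTS' (leaf_pts hS q.1) hx ⟨g1, by linarith⟩
  · linarith

end Vale.Agent.P040.H700
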