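import Vale.Agent.P040.H84.Core
import Vale.Agent.P040.H147.Anti

/-!
# P040, both parts odd: the integer potentials of stars with `2h + 1` arms (core algebra)

`m = 2h + 1` arms. `Val z R v`: the closed curve which passes through the middle of the leaf `z`
and has the word `R` (the `h` next loops, read from `z`) has twice the value `v`, relative to `z`.
The potential of a star at `z` is the sum of the values of the two windows of length `h` next
to `z` (the two orientations of the same curve), four times the real potential.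
-/

set_option autoImplicit false

namespace Vale.Agent.P040.H700

open H84 Bp

variable {X G : Type*} [Group G]

/-- The geometric input for odd `m = 2h + 1`: values of closed curves through the middle of one
leaf, star diagrams (`Dg`, as framed lists). -/
structure OddHyp (h : ℕ) (T : X → G) (Val : X → G → ℤ → Prop) (Dg : List (X × G) → Prop)
    (ε : ℤ) : Prop where
  one_le : 1 ≤ h
  sgn : ε = 1 ∨ ε = -1
  uniq : ∀ {z R v v'}, Val z R v → Val z R v' → v = v'
  twist : ∀ {z R v}, Val z R v → Val z ((T z)⁻¹ * R * T z) (v + ε * (2 * h - 1))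
  cent : ∀ (z : X) (c : G), c * T z = T z * c → ∃ j : ℤ, c = T z ^ j
  rot : ∀ {p : X × G} {L}, Dg (p :: L) → Dg (L ++ [p])
  len : ∀ {L}, Dg L → L.length = 2 * h + 1
  nodup : ∀ {L : List (X × G)}, Dg L → (L.map Prod.fst).Nodup
  prod : ∀ {L : List (X × G)}, Dg L → pr T L = 1
  tw : ∀ {p q : X × G} {L}, Dg (p :: q :: L) → Dg ((q.1, gg T p * q.2) :: p :: L)
  tw' : ∀ {p q : X × G} {L}, Dg (p :: q :: L) → Dg (q :: (p.1, (gg T q)⁻¹ * p.2) :: L)
  hex : ∀ {a b c : X × G} {A B L : List (X × G)},
    Dg (a :: (A ++ b :: (B ++ c :: L))) → A.length + B.length + 1 = h →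
    ∃ c1 c2 a2 a3 b3 b1 : ℤ,
      Val c.1 (c.2⁻¹ * (pr T A * gg T b * pr T B) * c.2) c1 ∧
      Val c.1 (c.2⁻¹ * (gg T a * pr T A * pr T B) * c.2) c2 ∧
      Val a.1 (a.2⁻¹ * (pr T A * pr T B * gg T c) * a.2) a2 ∧
      Val a.1 (a.2⁻¹ * (pr T A * gg T b * pr T B) * a.2) a3 ∧
      Val b.1 (b.2⁻¹ * (pr T B * gg T a * pr T A) * b.2) b3 ∧
      Val b.1 (b.2⁻¹ * (pr T B * gg T c * pr T A) * b.2) b1 ∧
      |c1 - c2| + |a2 - a3| + |b3 - b1| ≤ 2

open Classical in
/-- the value of the curve `R` at the leaf `z` -/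
noncomputable def vvz (Val : X → G → ℤ → Prop) (z : X) (R : G) : ℤ :=
  if h : ∃ v, Val z R v then h.choose else 0

/-- the potential of a star, pointed at the arm `p`, followed by the arms `M` -/
noncomputable def Np (h : ℕ) (T : X → G) (Val : X → G → ℤ → Prop) (p : X × G)
    (M : List (X × G)) : ℤ :=
  vvz Val p.1 (p.2⁻¹ * pr T (M.take h) * p.2) + vvz Val p.1 (p.2⁻¹ * pr T (M.drop h) * p.2)

open Classical in
/-- the potential at the leaf `z` of a star -/
noncomputable def N (h : ℕ) (T : X → G) (Val : X → G → ℤ → Prop) (z : X)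
    (L : List (X × G)) : ℤ :=
  match L.span (fun p => decide (p.1 ≠ z)) with
  | (A, p :: B) => Np h T Val p (B ++ A)
  | (_, []) => 0

theorem N_eq (h : ℕ) (T : X → G) (Val : X → G → ℤ → Prop) {z : X} {w : G}
    {A B : List (X × G)} (hz : z ∉ A.map Prod.fst) :
    N h T Val z (A ++ (z, w) :: B) = Np h T Val (z, w) (B ++ A) := by
  classical
  have h1 : ∀ A : List (X × G), z ∉ A.map Prod.fst →
      (A ++ (z, w) :: B).span (fun p => decide (p.1 ≠ z)) = (A, (z, w) :: B) := by
    intro A
    induction A with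
    | nil => intro _; rw [List.nil_append, List.span_eq_takeWhile_dropWhile]; simp
    | cons p A ih =>
      intro hA
      rw [List.span_eq_takeWhile_dropWhile] at ih ⊢
      have hp : p.1 ≠ z := by rintro rfl; simp at hA
      have hA' : z ∉ A.map Prod.fst :=
        fun hh => hA (by simp only [List.map_cons]; exact List.mem_cons_of_mem _ hh)
      have ih' := ih hA'
      rw [Prod.mk.injEq] at ih'
      simp only [List.cons_append, Prod.mk.injEq]
      rw [List.takeWhile_cons, List.dropWhile_cons]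
      simp only [ne_eq, hp, not_false_eq_true, decide_true, ↓reduceIte]
      refine ⟨?_, ?_⟩
      · rw [List.cons.injEq]; exact ⟨rfl, ih'.1⟩
      · exact ih'.2
  unfold N
  rw [h1 A hz]

theorem N_of_notMem (h : ℕ) (T : X → G) (Val : X → G → ℤ → Prop) {z : X}
    {L : List (X × G)} (hz : z ∉ L.map Prod.fst) : N h T Val z L = 0 := by
  classical
  have h1 : L.span (fun p => decide (p.1 ≠ z)) = (L, []) := by
    rw [List.span_eq_takeWhile_dropWhile]
    have h2 : ∀ p ∈ L, decide (p.1 ≠ z) = true := by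
      intro p hp
      rw [decide_eq_true_eq]
      rintro rfl
      exact hz (List.mem_map_of_mem hp)
    have h3 : ∀ L : List (X × G), (∀ p ∈ L, decide (p.1 ≠ z) = true) →
        L.takeWhile (fun p => decide (p.1 ≠ z)) = L ∧
          L.dropWhile (fun p => decide (p.1 ≠ z)) = [] := by
      intro L
      induction L with
      | nil => intro _; exact ⟨rfl, rfl⟩
      | cons p L ih =>
        intro hL
        have hp := hL p (List.mem_cons_self)
        have := ih fun q hq => hL q (List.mem_cons_of_mem _ hq)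
        rw [List.takeWhile_cons, List.dropWhile_cons, if_pos hp, if_pos hp, this.1, this.2]
        exact ⟨rfl, rfl⟩
    rw [(h3 L h2).1, (h3 L h2).2]
  unfold N
  rw [h1]

theorem N_rotate (h : ℕ) (T : X → G) (Val : X → G → ℤ → Prop) {p : X × G}
    {L : List (X × G)} (hn : ((p :: L).map Prod.fst).Nodup) (z : X) :
    N h T Val z (L ++ [p]) = N h T Val z (p :: L) := by
  by_cases hz : z ∈ (p :: L).map Prod.fst
  · by_cases hpz : p.1 = z
    · subst hpz
      have h1 : p.1 ∉ L.map Prod.fst := by
        rw [List.map_cons, List.nodup_cons] at hn; exact hn.1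
      have e1 : N h T Val p.1 (L ++ (p.1, p.2) :: []) = _ := N_eq h T Val h1
      have e2 : N h T Val p.1 ([] ++ (p.1, p.2) :: L) = _ := N_eq h T Val (by simp)
      rw [List.nil_append] at e2
      rw [show (p :: L) = (p.1, p.2) :: L from rfl, e2,
        show L ++ [p] = L ++ (p.1, p.2) :: [] from rfl, e1]
      simp
    · have hz' : z ∈ L.map Prod.fst := by
        rw [List.map_cons, List.mem_cons] at hz
        rcases hz with h1 | h1
        · exact absurd h1.symm hpz
        · exact h1
      have hn' : (L.map Prod.fst).Nodup := by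
        rw [List.map_cons, List.nodup_cons] at hn; exact hn.2
      obtain ⟨A, w, B, rfl, hA, hB⟩ := exists_split hz' hn'
      rw [List.append_assoc, List.cons_append, N_eq h T Val hA]
      have h2 : z ∉ (p :: A).map Prod.fst := by
        rw [List.map_cons, List.mem_cons]
        rintro (h3 | h3)
        · exact hpz h3.symm
        · exact hA h3
      have e2 := N_eq h T Val (z := z) (w := w) (A := p :: A) (B := B) h2
      rw [List.cons_append] at e2
      rw [e2, List.append_assoc]
      rfl
  · rw [N_of_notMem h T Val hz, N_of_notMem h T Val]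
    simpa [or_comm] using hz

section hyp

variable {h : ℕ} {T : X → G} {Val : X → G → ℤ → Prop} {Dg : List (X × G) → Prop} {ε : ℤ}
  (H : OddHyp h T Val Dg ε)

include H

theorem OddHyp.vvz_eq {z : X} {R : G} {v : ℤ} (hv : Val z R v) : vvz Val z R = v := by
  unfold vvz
  rw [dif_pos ⟨v, hv⟩]
  exact H.uniq (Exists.choose_spec (⟨v, hv⟩ : ∃ v, Val z R v)) hv

theorem OddHyp.rotn {M K : List (X × G)} (hD : Dg (M ++ K)) : Dg (K ++ M) := by
  induction M generalizing K with
  | nil => simpa using hD
  | cons p M ih =>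
    have h1 : Dg ((M ++ K) ++ [p]) := H.rot hD
    rw [List.append_assoc] at h1
    have h2 := ih h1
    simpa using h2

theorem OddHyp.exists_shape {x y : X × G} {L : List (X × G)} (hD : Dg (x :: y :: L)) :
    ∃ (A B : List (X × G)) (q : X × G), L = B ++ q :: A ∧ A.length + 1 = h ∧
      B.length + 1 = h := by
  have h1 := H.len hD
  have h2 := H.one_le
  simp only [List.length_cons] at h1
  have h3 : (L.take (h - 1)).length = h - 1 := by rw [List.length_take]; omega
  obtain ⟨q, A, hM⟩ : ∃ p M, L.drop (h - 1) = p :: M := by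
    cases hd : L.drop (h - 1) with
    | nil =>
      have := congrArg List.length hd
      rw [List.length_drop, List.length_nil] at this
      omega
    | cons p M => exact ⟨p, M, rfl⟩
  have hMl := congrArg List.length hM
  rw [List.length_drop, List.length_cons] at hMl
  refine ⟨A, L.take (h - 1), q, ?_, by omega, by omega⟩
  rw [← hM, List.take_append_drop]

/-- **Half twist.** One Hurwitz move changes the potentials by at most four in total. -/
theorem OddHyp.tw'_le [Fintype X] {x y : X × G} {L : List (X × G)} (hD : Dg (x :: y :: L)) :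
    ∑ z, |N h T Val z (y :: (x.1, (gg T y)⁻¹ * x.2) :: L) - N h T Val z (x :: y :: L)| ≤ 4 := by
  classical
  obtain ⟨A, B, q, rfl, hA, hB⟩ := H.exists_shape hD
  have hD' := H.tw' hD
  have hn := H.nodup hD
  have hn' := H.nodup hD'
  obtain ⟨x1, wx⟩ := x
  obtain ⟨y1, wy⟩ := y
  obtain ⟨q1, wq⟩ := q
  set x : X × G := (x1, wx) with hx
  set y : X × G := (y1, wy) with hy
  set q : X × G := (q1, wq) with hq
  set x' : X × G := (x1, (gg T y)⁻¹ * wx) with hx'
  change ∑ z, |N h T Val z (y :: x' :: (B ++ q :: A)) -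
    N h T Val z (x :: y :: (B ++ q :: A))| ≤ 4
  change Dg (y :: x' :: (B ++ q :: A)) at hD'
  have hgx' : gg T y * gg T x' = gg T x * gg T y := by
    simp only [hx', hx, gg]
    group
  -- distinctness
  have hnn : ((x :: y :: (B ++ q :: A)).map Prod.fst).Nodup := hn
  simp only [List.map_cons, List.map_append, hx, hy, hq] at hnn
  have hxy : x1 ≠ y1 := by rintro rfl; simp at hnn
  have hxq : x1 ≠ q1 := by rintro rfl; simp at hnn
  have hyq : y1 ≠ q1 := by rintro rfl; simp at hnn
  have hxA : x1 ∉ A.map Prod.fst := by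
    intro hh; rw [List.nodup_cons] at hnn; exact hnn.1 (by simp [hh])
  have hxB : x1 ∉ B.map Prod.fst := by
    intro hh; rw [List.nodup_cons] at hnn; exact hnn.1 (by simp [hh])
  rw [List.nodup_cons] at hnn
  have hnn2 := hnn.2
  have hyA : y1 ∉ A.map Prod.fst := by
    intro hh; rw [List.nodup_cons] at hnn2; exact hnn2.1 (by simp [hh])
  have hyB : y1 ∉ B.map Prod.fst := by
    intro hh; rw [List.nodup_cons] at hnn2; exact hnn2.1 (by simp [hh])
  rw [List.nodup_cons, List.nodup_append] at hnn2
  obtain ⟨-, hnB, hnqA, hBd⟩ := hnn2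
  have hqB : q1 ∉ B.map Prod.fst := fun hh => hBd _ hh _ (by simp) rfl
  rw [List.nodup_cons] at hnqA
  have hqA : q1 ∉ A.map Prod.fst := hnqA.1
  have hnA := hnqA.2
  have hAB : ∀ z ∈ A.map Prod.fst, z ∉ B.map Prod.fst := fun z hz hz' =>
    hBd _ hz' _ (by simp [hz]) rfl
  -- the two hexagons
  have hS1 : Dg (q :: (A ++ x :: ([] ++ y :: B))) := by
    have h1 : Dg ((x :: y :: B) ++ (q :: A)) := by simpa using hD
    simpa using H.rotn h1
  obtain ⟨c1, c2, a2, a3, b3, b1, hc1, hc2, ha2, ha3, hb3, hb1, hs1⟩ :=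
    H.hex hS1 (by simpa using hA)
  have hS2 : Dg (y :: ([] ++ x' :: (B ++ q :: A))) := hD'
  obtain ⟨c1', c2', a2', a3', b3', b1', hc1', hc2', ha2', ha3', hb3', hb1', hs2⟩ :=
    H.hex hS2 (by simpa using hB)
  -- the three changing leaves
  have hNq : N h T Val q1 (y :: x' :: (B ++ q :: A)) -
      N h T Val q1 (x :: y :: (B ++ q :: A)) = (a2 - a3) + (c1' - c2') := by
    have e1 := N_eq h T Val (z := q1) (w := wq) (A := y :: x' :: B) (B := A) (by
      simp [hx', hy, hxq.symm, hyq.symm]
      simpa using hqB)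
    have e2 := N_eq h T Val (z := q1) (w := wq) (A := x :: y :: B) (B := A) (by
      simp [hx, hy, hxq.symm, hyq.symm]
      simpa using hqB)
    rw [show (y :: x' :: B) ++ (q1, wq) :: A = y :: x' :: (B ++ q :: A) by
      simp [hq]] at e1
    rw [show (x :: y :: B) ++ (q1, wq) :: A = x :: y :: (B ++ q :: A) by
      simp [hq]] at e2
    rw [e1, e2]
    unfold Np
    rw [show A ++ (y :: x' :: B) = (A ++ [y]) ++ (x' :: B) by simp,
      show A ++ (x :: y :: B) = (A ++ [x]) ++ (y :: B) by simp,
      take_eq (by rw [List.length_append, List.length_singleton]; omega),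
      take_eq (by rw [List.length_append, List.length_singleton]; omega),
      drop_eq (by rw [List.length_append, List.length_singleton]; omega),
      drop_eq (by rw [List.length_append, List.length_singleton]; omega)]
    have f1 : vvz Val q1 (wq⁻¹ * pr T (A ++ [y]) * wq) = a2 := by
      refine H.vvz_eq ?_
      simpa [hq] using ha2
    have f2 : vvz Val q1 (wq⁻¹ * pr T (A ++ [x]) * wq) = a3 := by
      refine H.vvz_eq ?_
      simpa [hq] using ha3
    have f3 : vvz Val q1 (wq⁻¹ * pr T (x' :: B) * wq) = c1' := by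
      refine H.vvz_eq ?_
      simpa [hq] using hc1'
    have f4 : vvz Val q1 (wq⁻¹ * pr T (y :: B) * wq) = c2' := by
      refine H.vvz_eq ?_
      simpa [hq] using hc2'
    simp only [f1, f2, f3, f4]
    ring
  have hNy : N h T Val y1 (y :: x' :: (B ++ q :: A)) -
      N h T Val y1 (x :: y :: (B ++ q :: A)) = (a3' - a2') + (c2 - c1) := by
    have e1 := N_eq h T Val (z := y1) (w := wy) (A := []) (B := x' :: (B ++ q :: A)) (by simp)
    have e2 := N_eq h T Val (z := y1) (w := wy) (A := [x]) (B := B ++ q :: A) (by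
      simp [hx, hxy.symm])
    rw [show [] ++ (y1, wy) :: x' :: (B ++ q :: A) = y :: x' :: (B ++ q :: A) by
      simp [hy]] at e1
    rw [show [x] ++ (y1, wy) :: (B ++ q :: A) = x :: y :: (B ++ q :: A) by
      simp [hy]] at e2
    rw [e1, e2]
    unfold Np
    rw [show x' :: (B ++ q :: A) ++ [] = (x' :: B) ++ (q :: A) by simp,
      show B ++ q :: A ++ [x] = (B ++ [q]) ++ (A ++ [x]) by simp,
      take_eq (by rw [List.length_cons]; omega),
      take_eq (by rw [List.length_append, List.length_singleton]; omega),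
      drop_eq (by rw [List.length_cons]; omega),
      drop_eq (by rw [List.length_append, List.length_singleton]; omega)]
    have f1 : vvz Val y1 (wy⁻¹ * pr T (x' :: B) * wy) = a3' := by
      refine H.vvz_eq ?_
      simpa [hy] using ha3'
    have f2 : vvz Val y1 (wy⁻¹ * pr T (q :: A) * wy) = c2 := by
      refine H.vvz_eq ?_
      simpa [hy] using hc2
    have f3 : vvz Val y1 (wy⁻¹ * pr T (B ++ [q]) * wy) = a2' := by
      refine H.vvz_eq ?_
      simpa [hy] using ha2'
    have f4 : vvz Val y1 (wy⁻¹ * pr T (A ++ [x]) * wy) = c1 := by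
      refine H.vvz_eq ?_
      simpa [hy] using hc1
    simp only [f1, f2, f3, f4]
    ring
  have hNx : N h T Val x1 (y :: x' :: (B ++ q :: A)) -
      N h T Val x1 (x :: y :: (B ++ q :: A)) = (b1' - b3') + (b1 - b3) := by
    have e1 := N_eq h T Val (z := x1) (w := (gg T y)⁻¹ * wx) (A := [y]) (B := B ++ q :: A)
      (by simp [hy, hxy])
    have e2 := N_eq h T Val (z := x1) (w := wx) (A := []) (B := y :: (B ++ q :: A)) (by simp)
    rw [show [y] ++ (x1, (gg T y)⁻¹ * wx) :: (B ++ q :: A) = y :: x' :: (B ++ q :: A) by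
      simp [hx']] at e1
    rw [show [] ++ (x1, wx) :: y :: (B ++ q :: A) = x :: y :: (B ++ q :: A) by
      simp [hx]] at e2
    rw [e1, e2]
    unfold Np
    rw [show y :: (B ++ q :: A) ++ [] = (y :: B) ++ (q :: A) by simp,
      show B ++ q :: A ++ [y] = (B ++ [q]) ++ (A ++ [y]) by simp,
      take_eq (by rw [List.length_append, List.length_singleton]; omega),
      take_eq (by rw [List.length_cons]; omega),
      drop_eq (by rw [List.length_append, List.length_singleton]; omega),
      drop_eq (by rw [List.length_cons]; omega)]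
    have f1 : vvz Val x1 (((gg T y)⁻¹ * wx)⁻¹ * pr T (B ++ [q]) * ((gg T y)⁻¹ * wx)) = b1' := by
      refine H.vvz_eq ?_
      simpa [hx'] using hb1'
    have f2 : vvz Val x1 (((gg T y)⁻¹ * wx)⁻¹ * pr T (A ++ [y]) * ((gg T y)⁻¹ * wx)) = b1 := by
      refine H.vvz_eq ?_
      have e : ((gg T y)⁻¹ * wx)⁻¹ * pr T (A ++ [y]) * ((gg T y)⁻¹ * wx) =
          x.2⁻¹ * (pr T [] * gg T y * pr T A) * x.2 := by
        simp only [pr_append, pr_cons, pr_nil, hx]
        group
      rw [e]
      exact hb1
    have f3 : vvz Val x1 (wx⁻¹ * pr T (y :: B) * wx) = b3' := by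
      refine H.vvz_eq ?_
      have e : wx⁻¹ * pr T (y :: B) * wx =
          x'.2⁻¹ * (pr T B * gg T y * pr T []) * x'.2 := by
        simp only [pr_cons, pr_nil, hx']
        group
      rw [e]
      exact hb3'
    have f4 : vvz Val x1 (wx⁻¹ * pr T (q :: A) * wx) = b3 := by
      refine H.vvz_eq ?_
      simpa [hx] using hb3
    simp only [f1, f2, f3, f4]
    ring
  -- the other leaves
  have hN0 : ∀ z, z ∉ ({x1, y1, q1} : Finset X) →
      N h T Val z (y :: x' :: (B ++ q :: A)) = N h T Val z (x :: y :: (B ++ q :: A)) := by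
    intro z hz
    simp only [Finset.mem_insert, Finset.mem_singleton, not_or] at hz
    obtain ⟨hzx, hzy, hzq⟩ := hz
    by_cases hzA : z ∈ A.map Prod.fst
    · have hzB : z ∉ B.map Prod.fst := hAB z hzA
      obtain ⟨A1, w, A2, rfl, hA1, hA2⟩ := exists_split hzA hnA
      have e1 := N_eq h T Val (z := z) (w := w) (A := y :: x' :: (B ++ q :: A1)) (B := A2) (by
        simp [hx', hy, hq, hzx, hzy, hzq]
        exact ⟨by simpa using hzB, by simpa using hA1⟩)
      have e2 := N_eq h T Val (z := z) (w := w) (A := x :: y :: (B ++ q :: A1)) (B := A2) (by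
        simp [hx, hy, hq, hzx, hzy, hzq]
        exact ⟨by simpa using hzB, by simpa using hA1⟩)
      have s1 : ∀ u v : X × G, u :: v :: (B ++ q :: A1) ++ (z, w) :: A2 =
          u :: v :: (B ++ q :: (A1 ++ (z, w) :: A2)) := by intro u v; simp
      rw [s1] at e1 e2
      rw [e1, e2]
      unfold Np
      simp only [List.length_append, List.length_cons] at hA
      rw [pr_take_swap hgx' A2 _ (Or.inr (by omega)), pr_drop_swap hgx' A2 _ (Or.inr (by omega))]
    · by_cases hzB : z ∈ B.map Prod.fst
      · obtain ⟨B1, w, B2, rfl, hB1, hB2⟩ := exists_split hzB hnB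
        have e1 := N_eq h T Val (z := z) (w := w) (A := y :: x' :: B1) (B := B2 ++ q :: A) (by
          simp [hx', hy, hzx, hzy]
          simpa using hB1)
        have e2 := N_eq h T Val (z := z) (w := w) (A := x :: y :: B1) (B := B2 ++ q :: A) (by
          simp [hx, hy, hzx, hzy]
          simpa using hB1)
        have s1 : ∀ u v : X × G, u :: v :: B1 ++ (z, w) :: (B2 ++ q :: A) =
            u :: v :: (B1 ++ (z, w) :: B2 ++ q :: A) := by intro u v; simp
        rw [s1] at e1 e2
        rw [e1, e2]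
        unfold Np
        simp only [List.length_append, List.length_cons] at hB
        rw [pr_take_swap hgx' (B2 ++ q :: A) B1 (Or.inl (by simp; omega)),
          pr_drop_swap hgx' (B2 ++ q :: A) B1 (Or.inl (by simp; omega))]
      · rw [N_of_notMem, N_of_notMem]
        · simp [hx, hy, hq, hzx, hzy, hzq]
          exact ⟨by simpa using hzB, by simpa using hzA⟩
        · simp [hx', hy, hq, hzx, hzy, hzq]
          exact ⟨by simpa using hzB, by simpa using hzA⟩
  have hsum : ∑ z, |N h T Val z (y :: x' :: (B ++ q :: A)) -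
      N h T Val z (x :: y :: (B ++ q :: A))| =
      ∑ z ∈ ({x1, y1, q1} : Finset X), |N h T Val z (y :: x' :: (B ++ q :: A)) -
      N h T Val z (x :: y :: (B ++ q :: A))| := by
    symm
    apply Finset.sum_subset (Finset.subset_univ _)
    intro z _ hz
    rw [hN0 z hz, sub_self, abs_zero]
  rw [hsum, Finset.sum_insert (by simp [hxy, hxq]), Finset.sum_insert (by simp [hyq]),
    Finset.sum_singleton, hNx, hNy, hNq]
  have t1 : |(b1' - b3') + (b1 - b3)| ≤ |b3' - b1'| + |b3 - b1| := by
    refine (abs_add_le _ _).trans (le_of_eq ?_)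
    rw [abs_sub_comm b1' b3', abs_sub_comm b1 b3]
  have t2 : |(a3' - a2') + (c2 - c1)| ≤ |a2' - a3'| + |c1 - c2| := by
    refine (abs_add_le _ _).trans (le_of_eq ?_)
    rw [abs_sub_comm a3' a2', abs_sub_comm c2 c1]
  have t3 : |(a2 - a3) + (c1' - c2')| ≤ |a2 - a3| + |c1' - c2'| := abs_add_le _ _
  linarith

/-- The other half twist. -/
theorem OddHyp.tw_le [Fintype X] {x y : X × G} {L : List (X × G)} (hD : Dg (x :: y :: L)) :
    ∑ z, |N h T Val z ((y.1, gg T x * y.2) :: x :: L) - N h T Val z (x :: y :: L)| ≤ 4 := by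
  have h1 := H.tw'_le (H.tw hD)
  have h2 : ((y.1, gg T x * y.2).1, (gg T x)⁻¹ * (y.1, gg T x * y.2).2) = y := by
    simp
  rw [h2] at h1
  refine le_trans (le_of_eq ?_) h1
  apply Finset.sum_congr rfl
  intro z _
  rw [abs_sub_comm]

theorem OddHyp.rotate {L : List (X × G)} (hD : Dg L) (n : ℕ) : Dg (L.rotate n) := by
  rw [List.rotate_eq_drop_append_take_mod]
  apply H.rotn
  rwa [List.take_append_drop]

theorem OddHyp.N_rotate_n {L : List (X × G)} (hD : Dg L) (n : ℕ) (z : X) :
    N h T Val z (L.rotate n) = N h T Val z L := by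
  induction n with
  | zero => simp
  | succ n ih =>
    have h1 := H.rotate hD n
    rw [← ih, ← List.rotate_rotate L n 1]
    cases hL : L.rotate n with
    | nil => rfl
    | cons p M =>
      rw [hL] at h1
      rw [List.rotate_cons_succ, List.rotate_zero]
      exact N_rotate h T Val (H.nodup h1) z

/-! ### the antipode -/

theorem OddHyp.twist_pow {z : X} {R : G} {v : ℤ} (hv : Val z R v) (n : ℕ) :
    Val z ((T z ^ n)⁻¹ * R * T z ^ n) (v + ε * n * (2 * h - 1)) := by
  induction n with
  | zero => simpa using hv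
  | succ n ih =>
    have h1 := H.twist ih
    convert h1 using 1
    · rw [pow_succ]; group
    · push_cast; ring

theorem OddHyp.twist_zpow {z : X} {R R' : G} {v v' : ℤ} (hv : Val z R v) (hv' : Val z R' v')
    (j : ℤ) (hR : R' = (T z ^ j)⁻¹ * R * T z ^ j) : v' = v + ε * j * (2 * h - 1) := by
  obtain ⟨n, hn | hn⟩ := j.eq_nat_or_neg
  · subst hn
    have h1 := H.twist_pow hv n
    rw [zpow_natCast] at hR
    rw [← hR] at h1
    exact H.uniq hv' h1
  · subst hn
    have h1 := H.twist_pow hv' n
    have h2 : (T z ^ n)⁻¹ * R' * T z ^ n = R := by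
      rw [hR, zpow_neg, zpow_natCast]; group
    rw [h2] at h1
    have := H.uniq hv h1
    rw [this]; ring

/-- the two windows at the front arm -/
theorem OddHyp.win {z : X} {w : G} {M1 M2 : List (X × G)}
    (hD : Dg ((z, w) :: (M1 ++ M2))) (h1 : M1.length = h) (h2 : M2.length = h) :
    ∃ v1 v2, Val z (w⁻¹ * pr T M1 * w) v1 ∧ Val z (w⁻¹ * pr T M2 * w) v2 ∧
      Np h T Val (z, w) (M1 ++ M2) = v1 + v2 := by
  have hh := H.one_le
  obtain ⟨v1, hv1⟩ : ∃ v1, Val z (w⁻¹ * pr T M1 * w) v1 := by
    obtain ⟨A, b, rfl⟩ : ∃ A b, M1 = A ++ [b] := by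
      rcases List.eq_nil_or_concat' M1 with h3 | ⟨A, b, h3⟩
      · rw [h3, List.length_nil] at h1; omega
      · exact ⟨A, b, h3⟩
    obtain ⟨c, M2', rfl⟩ : ∃ c M2', M2 = c :: M2' := by
      cases M2 with
      | nil => rw [List.length_nil] at h2; omega
      | cons c M2' => exact ⟨c, M2', rfl⟩
    have h3 : Dg ((z, w) :: (A ++ b :: ([] ++ c :: M2'))) := by simpa using hD
    have h4 : A.length + ([] : List (X × G)).length + 1 = h := by
      simp only [List.length_append, List.length_cons, List.length_nil] at h1 ⊢; omega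
    obtain ⟨c1, c2, a2, a3, b3, b1, -, -, -, h5, -⟩ := H.hex h3 h4
    exact ⟨a3, by simpa using h5⟩
  obtain ⟨v2, hv2⟩ : ∃ v2, Val z (w⁻¹ * pr T M2 * w) v2 := by
    obtain ⟨A, b, rfl⟩ : ∃ A b, M2 = A ++ [b] := by
      rcases List.eq_nil_or_concat' M2 with h3 | ⟨A, b, h3⟩
      · rw [h3, List.length_nil] at h2; omega
      · exact ⟨A, b, h3⟩
    obtain ⟨M1', c, rfl⟩ : ∃ M1' c, M1 = M1' ++ [c] := by
      rcases List.eq_nil_or_concat' M1 with h3 | ⟨A, b, h3⟩
      · rw [h3, List.length_nil] at h1; omega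
      · exact ⟨A, b, h3⟩
    have h0 : Dg (((z, w) :: M1') ++ (c :: (A ++ [b]))) := by simpa using hD
    have h3 : Dg (c :: (A ++ b :: ([] ++ (z, w) :: M1'))) := by
      have := H.rotn h0
      simpa using this
    have h4 : A.length + ([] : List (X × G)).length + 1 = h := by
      simp only [List.length_append, List.length_cons, List.length_nil] at h2 ⊢; omega
    obtain ⟨c1, c2, a2, a3, b3, b1, h5, -⟩ := H.hex h3 h4
    exact ⟨c1, by simpa using h5⟩
  refine ⟨v1, v2, hv1, hv2, ?_⟩
  unfold Np
  rw [take_eq h1, drop_eq h1, H.vvz_eq hv1, H.vvz_eq hv2]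

/-- splitting a star at a leaf: the leaf in front, two windows of length `h` -/
theorem OddHyp.front {L : List (X × G)} (hD : Dg L) {z : X} (hz : z ∈ L.map Prod.fst) :
    ∃ (w : G) (M1 M2 : List (X × G)), Dg ((z, w) :: (M1 ++ M2)) ∧
      M1.length = h ∧ M2.length = h ∧
      N h T Val z L = Np h T Val (z, w) (M1 ++ M2) ∧
      (tp T L) ~r (tp T ((z, w) :: (M1 ++ M2))) := by
  have hh := H.one_le
  obtain ⟨A, w, B, rfl, hA, hB⟩ := exists_split hz (H.nodup hD)
  have h1 : Dg ((z, w) :: (B ++ A)) := by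
    have := H.rotn hD
    simpa using this
  have hl : (B ++ A).length = 2 * h := by
    have := H.len h1
    rw [List.length_cons] at this
    omega
  refine ⟨w, (B ++ A).take h, (B ++ A).drop h, ?_, ?_, ?_, ?_, ?_⟩
  · rw [List.take_append_drop]; exact h1
  · rw [List.length_take]; omega
  · rw [List.length_drop]; omega
  · rw [List.take_append_drop, N_eq h T Val hA]
  · rw [List.take_append_drop]
    simp only [tp_append, tp_cons]
    have := List.isRotated_append (l := tp T A) (l' := (z, gg T (z, w)) :: tp T B)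
    simpa using this

end hyp

/-- The antipode of a rotated tuple with `z` in front, two blocks. -/
theorem bar_front2 {α : Type*} (p : α × G) (B D : List (α × G)) :
    TEq (bar (p :: (B ++ D))) (p :: (cj (p.2 * lps B) (bar D) ++ cj p.2 (bar B))) := by
  apply TEq.of_rot
  rw [bar_cons, bar_append, cj_append, cj_cj]
  have h3 := List.isRotated_append
    (l := cj (p.2 * lps B) (bar D) ++ cj p.2 (bar B)) (l' := [p])
  simpa using h3

theorem lps_block_D2 {α : Type*} (p : α × G) (B D : List (α × G))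
    (h : lps (p :: (B ++ D)) = 1) : lps (cj (p.2 * lps B) (bar D)) = lps D := by
  rw [lps_cj, lps_bar]
  have h1 : p.2 * lps B = (lps D)⁻¹ := by
    simp only [lps_cons, lps_append] at h
    apply eq_inv_of_mul_eq_one_left
    rw [← h]; group
  rw [h1]; group

section hyp

variable {h : ℕ} {T : X → G} {Val : X → G → ℤ → Prop} {Dg : List (X × G) → Prop} {ε : ℤ}
  (H : OddHyp h T Val Dg ε)

include H

/-- **The antipode.** -/
theorem OddHyp.anti_of_mem {L L' : List (X × G)} (hL : Dg L) (hL' : Dg L')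
    (ht : TEq (tp T L') (bar (tp T L))) {z : X} (hz : z ∈ L.map Prod.fst) :
    ∃ q : ℤ, N h T Val z L' = N h T Val z L + (2 * h - 1) + 2 * (2 * h - 1) * q := by
  have hz' : z ∈ L'.map Prod.fst := by
    have h1 := (TEq.perm_fst ht).mem_iff (a := z)
    rw [bar_map_fst, tp_map_fst, tp_map_fst, List.mem_reverse] at h1
    exact h1.2 hz
  obtain ⟨w, M1, M2, hD, l1, l2, hF, hr⟩ := H.front hL hz
  obtain ⟨w', M1', M2', hD', l1', l2', hF', hr'⟩ := H.front hL' hz'
  obtain ⟨v1, v2, hv1, hv2, hv⟩ := H.win hD l1 l2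
  obtain ⟨v1', v2', hv1', hv2', hv'⟩ := H.win hD' l1' l2'
  -- the tuples
  have hp : lps (tp T L) = 1 := by rw [lps_tp]; exact H.prod hL
  have hp0 : lps ((z, gg T (z, w)) :: (tp T M1 ++ tp T M2)) = 1 := by
    have := H.prod hD
    rw [← lps_tp] at this
    simpa using this
  have h1 : TEq (tp T L') (bar (tp T ((z, w) :: (M1 ++ M2)))) :=
    ht.trans ((TEq.of_rot hr).bar hp)
  have h2 : TEq (tp T ((z, w') :: (M1' ++ M2')))
      ((z, gg T (z, w)) :: (cj (gg T (z, w) * lps (tp T M1)) (bar (tp T M2)) ++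
          cj (gg T (z, w)) (bar (tp T M1)))) := by
    refine (TEq.of_rot hr').symm.trans (h1.trans ?_)
    have := bar_front2 (z, gg T (z, w)) (tp T M1) (tp T M2)
    simpa using this
  obtain ⟨c, hc⟩ := h2
  have hn' : ((cj c (tp T ((z, w') :: (M1' ++ M2')))).map Prod.fst).Nodup := by
    rw [cj_map_fst, tp_map_fst]
    exact H.nodup hD'
  rw [tp_cons, cj_cons] at hc hn'
  have h3 := eq_of_isRotated hc hn' rfl
  rw [List.cons.injEq, Prod.mk.injEq, tp_append, cj_append] at h3
  obtain ⟨⟨-, h4⟩, h5⟩ := h3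
  have l3 : (cj c (tp T M1')).length =
      (cj (gg T (z, w) * lps (tp T M1)) (bar (tp T M2))).length := by
    simp [l1', l2]
  obtain ⟨h6, h7⟩ := List.append_inj h5 l3
  have h8 : c * pr T M1' * c⁻¹ = pr T M2 := by
    have := congrArg lps h6
    rw [lps_cj, lps_tp] at this
    rw [this]
    have h9 := lps_block_D2 _ _ _ hp0
    rw [lps_tp T M2] at h9
    exact h9
  have h9 : c * pr T M2' * c⁻¹ = gg T (z, w) * pr T M1 * (gg T (z, w))⁻¹ := by
    have := congrArg lps h7
    rw [lps_cj, lps_tp, lps_cj, lps_bar, lps_tp] at this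
    exact this
  -- the framing
  obtain ⟨j, hj⟩ := H.cent z (w⁻¹ * c * w') (by
    have h10 : c * (w' * T z * w'⁻¹) * c⁻¹ = w * T z * w⁻¹ := h4
    calc w⁻¹ * c * w' * T z = w⁻¹ * (c * (w' * T z * w'⁻¹) * c⁻¹) * (c * w') := by group
      _ = w⁻¹ * (w * T z * w⁻¹) * (c * w') := by rw [h10]
      _ = T z * (w⁻¹ * c * w') := by group)
  have hw : w' = c⁻¹ * w * T z ^ j := by
    rw [← hj]; group
  have e1 : pr T M1' = c⁻¹ * pr T M2 * c := by rw [← h8]; group
  have e2 : pr T M2' = c⁻¹ * (gg T (z, w) * pr T M1 * (gg T (z, w))⁻¹) * c := by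
    rw [← h9]; group
  have r1 : v1' = v2 + ε * j * (2 * h - 1) := by
    refine H.twist_zpow hv2 hv1' j ?_
    rw [e1, hw]; group
  have r2 : v2' = v1 + ε * (j - 1) * (2 * h - 1) := by
    refine H.twist_zpow hv1 hv2' (j - 1) ?_
    rw [e2, hw]
    simp only [gg]
    rw [zpow_sub, zpow_one]
    group
  rw [hF, hF', hv, hv', r1, r2]
  rcases H.sgn with he | he
  · refine ⟨j - 1, ?_⟩
    rw [he]; ring
  · refine ⟨-j, ?_⟩
    rw [he]; ring

end hyp

/-- **The antipode**, all leaves. -/
theorem OddHyp.anti {h : ℕ} {T : Fin (2 * h + 1) → G} {Val : Fin (2 * h + 1) → G → ℤ → Prop}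
    {Dg : List (Fin (2 * h + 1) × G) → Prop} {ε : ℤ} (H : OddHyp h T Val Dg ε)
    {L L' : List (Fin (2 * h + 1) × G)} (hL : Dg L) (hL' : Dg L')
    (ht : TEq (tp T L') (bar (tp T L))) :
    ∀ z, ∃ q : ℤ, N h T Val z L' = N h T Val z L + (2 * h - 1) + 2 * (2 * h - 1) * q := by
  intro z
  refine H.anti_of_mem hL hL' ht ?_
  have h1 := H.nodup hL
  have h2 : (L.map Prod.fst).length = 2 * h + 1 := by rw [List.length_map, H.len hL]
  have h3 : (L.map Prod.fst).toFinset = Finset.univ := by
    apply Finset.eq_univ_of_card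
    rw [List.toFinset_card_of_nodup h1, h2, Fintype.card_fin]
  have h4 : z ∈ (L.map Prod.fst).toFinset := by rw [h3]; exact Finset.mem_univ z
  exact List.mem_toFinset.1 h4

end Vale.Agent.P040.H700
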