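import Vale.Agent.P040.H700.OddCore
import Vale.Agent.P040.H242.Final
import Vale.Agent.P040.H45.OddEnd

/-!
# P040, both parts odd: the machine from the geometric input

`OddInput h leaf`: labels of the gaps and values of closed curves through the middle of one leaf
with the properties `OddHyp`, for the framed lists of star diagrams with `2h + 1` arms.
-/

set_option autoImplicit false

namespace Vale.Agent.P040.H700

open H84 Bp Hz Topo Pst

/-- The distance of two families of integer potentials modulo `2(2h-1)` is at most `B`. -/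
def NearZ (h : ℕ) (f g : Fin (2 * h + 1) → ℤ) (B : ℤ) : Prop :=
  ∃ q : Fin (2 * h + 1) → ℤ, ∑ z, |f z - g z - 2 * (2 * h - 1) * q z| ≤ B

theorem NearZ.trans {h : ℕ} {f g k : Fin (2 * h + 1) → ℤ} {B C : ℤ} (H : NearZ h f g B)
    (H' : NearZ h g k C) : NearZ h f k (B + C) := by
  obtain ⟨q, hq⟩ := H
  obtain ⟨r, hr⟩ := H'
  refine ⟨fun z => q z + r z, le_trans ?_ (add_le_add hq hr)⟩
  rw [← Finset.sum_add_distrib]
  apply Finset.sum_le_sum
  intro z _
  refine le_trans (le_of_eq ?_) (abs_add_le _ _)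
  congr 1
  ring

theorem NearZ.refl {h : ℕ} (f : Fin (2 * h + 1) → ℤ) : NearZ h f f 0 :=
  ⟨fun _ => 0, by simp⟩

section

variable {h : ℕ} {G : Type*} [Group G] {T : Fin (2 * h + 1) → G}
  {Val : Fin (2 * h + 1) → G → ℤ → Prop} {Dg : List (Fin (2 * h + 1) × G) → Prop} {ε : ℤ}
  (H : OddHyp h T Val Dg ε)

include H

theorem OddHyp.step_tw {L : List (Fin (2 * h + 1) × G)} (hL : Dg L) {x : Fin (2 * h + 1)} {g : G}
    {y : Fin (2 * h + 1)} {k : G} {R : List (Fin (2 * h + 1) × G)}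
    (ht : TEq (tp T L) ((x, g) :: (y, k) :: R)) :
    ∃ L', Dg L' ∧ TEq (tp T L') ((y, g * k * g⁻¹) :: (x, g) :: R) ∧
      NearZ h (fun z => N h T Val z L) (fun z => N h T Val z L') 4 := by
  obtain ⟨c, n, a, b, M, h1, rfl, rfl, rfl, rfl, rfl⟩ := exists_of_TEq ht
  have hD : Dg (a :: b :: M) := h1 ▸ H.rotate hL n
  refine ⟨_, H.tw hD, ⟨c, ?_⟩, 0, ?_⟩
  · refine (fun e => e ▸ List.IsRotated.refl _ :
      ∀ {l l' : List (Fin (2 * h + 1) × G)}, l = l' → l ~r l') ?_
    simp only [cj, tp, List.map_cons, gg_conj]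
    rw [List.cons.injEq]
    refine ⟨?_, rfl⟩
    rw [Prod.mk.injEq]
    refine ⟨rfl, ?_⟩
    group
  · refine le_trans (le_of_eq ?_) (H.tw_le hD)
    apply Finset.sum_congr rfl
    intro z _
    rw [← h1, H.N_rotate_n hL n z, abs_sub_comm]
    simp

theorem OddHyp.step_tw' {L : List (Fin (2 * h + 1) × G)} (hL : Dg L) {x : Fin (2 * h + 1)} {g : G}
    {y : Fin (2 * h + 1)} {k : G} {R : List (Fin (2 * h + 1) × G)}
    (ht : TEq (tp T L) ((x, g) :: (y, k) :: R)) :
    ∃ L', Dg L' ∧ TEq (tp T L') ((y, k) :: (x, k⁻¹ * g * k) :: R) ∧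
      NearZ h (fun z => N h T Val z L) (fun z => N h T Val z L') 4 := by
  obtain ⟨c, n, a, b, M, h1, rfl, rfl, rfl, rfl, rfl⟩ := exists_of_TEq ht
  have hD : Dg (a :: b :: M) := h1 ▸ H.rotate hL n
  refine ⟨_, H.tw' hD, ⟨c, ?_⟩, 0, ?_⟩
  · refine (fun e => e ▸ List.IsRotated.refl _ :
      ∀ {l l' : List (Fin (2 * h + 1) × G)}, l = l' → l ~r l') ?_
    simp only [cj, tp, List.map_cons, gg_conj]
    rw [List.cons.injEq, List.cons.injEq]
    refine ⟨rfl, ?_, rfl⟩
    rw [Prod.mk.injEq]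
    refine ⟨rfl, ?_⟩
    group
  · refine le_trans (le_of_eq ?_) (H.tw'_le hD)
    apply Finset.sum_congr rfl
    intro z _
    rw [← h1, H.N_rotate_n hL n z, abs_sub_comm]
    simp

/-- a path of Hurwitz moves -/
theorem OddHyp.path {n : ℕ} {L L' : List (Fin (2 * h + 1) × G)} (p : HzPath n L L') :
    ∀ s, Dg s → TEq (tp T s) L → ∃ s', Dg s' ∧ TEq (tp T s') L' ∧
      NearZ h (fun z => N h T Val z s) (fun z => N h T Val z s') (4 * n) := by
  induction p with
  | refl L =>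
    intro s hs h1
    exact ⟨s, hs, h1, by simpa using NearZ.refl (fun z => N h T Val z s)⟩
  | @rot n L p L' _ ih =>
    intro s hs h1
    refine ih s hs (h1.trans (TEq.of_rot ?_))
    exact ⟨1, by simp⟩
  | @tw n x g y k R L' _ ih =>
    intro s hs h1
    obtain ⟨s1, hs1, h2, h3⟩ := H.step_tw hs h1
    obtain ⟨s2, hs2, h4, h5⟩ := ih s1 hs1 h2
    refine ⟨s2, hs2, h4, ?_⟩
    have := h3.trans h5
    push_cast
    rwa [mul_add, mul_one, add_comm (4 * (n : ℤ)) 4]
  | @tw' n x g y k R L' _ ih =>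
    intro s hs h1
    obtain ⟨s1, hs1, h2, h3⟩ := H.step_tw' hs h1
    obtain ⟨s2, hs2, h4, h5⟩ := ih s1 hs1 h2
    refine ⟨s2, hs2, h4, ?_⟩
    have := h3.trans h5
    push_cast
    rwa [mul_add, mul_one, add_comm (4 * (n : ℤ)) 4]

end

/-- **The geometric input** for the `2h + 1` leaves `leaf`. -/
def OddInput (h : ℕ) (leaf : Fin (2 * h + 1) → ℝ) : Prop :=
  ∃ (Γ : Type) (K : Gaps leaf Γ) (Val : Fin (2 * h + 1) → FreeGroup Γ → ℤ → Prop) (ε : ℤ),
    W.Cyc K ∧ OddHyp h (sl K) Val (Dgs leaf K) ε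

/-- **The odd machine from the geometric input.** -/
theorem oddMachine_of_input
    (I : ∀ h : ℕ, 1 ≤ h → ∀ leaf : Fin (2 * h + 1) → ℝ, Function.Injective leaf →
      OddInput h leaf) :
    Odd.OddMachine := by
  intro h hh leaf hl
  obtain ⟨Γ, K, Val, ε, hK, H⟩ := I h hh leaf hl
  refine ⟨fun s z => N h (sl K) Val z (Slot.frl K s), ?_⟩
  intro b k hbk
  obtain ⟨n, L, L', hn, h2, h3, h4⟩ := W.pairPath_loops K hK (by omega) hbk
  have key : ∀ s : SStar leaf, tp (sl K) (Slot.frl K s) = s.rot.map fun x => (x, s.loop K x) := by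
    intro s
    unfold Slot.frl tp
    rw [List.map_map]
    apply List.map_congr_left
    intro x _
    show (x, gg (sl K) (x, s.fw K x)) = (x, s.loop K x)
    rw [s.loop_eq K x]
    rfl
  rw [← key] at h2 h4
  have hm : 0 < 2 * h + 1 := by omega
  obtain ⟨s', hs', h5, q, hq⟩ := H.path h3 _ (dgs_frl K hK hm b) h2
  have h6 := H.anti (dgs_frl K hK hm k) hs' (h5.trans h4)
  choose r hr using h6
  refine ⟨fun z => q z + r z, ?_⟩
  have hn' : (4 * (n : ℤ)) ≤ 4 * (b.cr k : ℤ) := by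
    have : (n : ℤ) ≤ (b.cr k : ℤ) := by exact_mod_cast hn
    linarith
  refine le_trans (le_of_eq ?_) (hq.trans hn')
  apply Finset.sum_congr rfl
  intro z _
  show |N h (sl K) Val z (Slot.frl K b) - N h (sl K) Val z (Slot.frl K k) - (2 * h - 1) -
    2 * (2 * h - 1) * (q z + r z)| = _
  simp only
  rw [hr z]
  congr 1
  ring

/-- **Zarankiewicz's conjecture for odd `m` and all `n`** from the geometric input. -/
theorem zar_odd_of_input
    (I : ∀ h : ℕ, 1 ≤ h → ∀ leaf : Fin (2 * h + 1) → ℝ, Function.Injective leaf →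
      OddInput h leaf) {m n : ℕ} (hm : _root_.Odd m) (D : Drawing (K m n)) :
    zar m n ≤ D.crossings :=
  Odd.odd_of_machine (oddMachine_of_input I) hm D

end Vale.Agent.P040.H700
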